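import Vale.Agent.P254.H4.Blocks

/-!
P254: the free covariance and the first absolute moments of bodies symmetric in `p` coordinates.
-/

open MeasureTheory Set Matrix

namespace Vale.Agent.P254.H4

open Unc Unc.FB H242 FV

variable {n q m : ℕ}

theorem sym_abs {e : Fin n ≃ Fin q ⊕ Fin (m + 1)} {K : Set (Fin n → ℝ)} (hK : IsConvexBody K)
    (hs : SymE e K) :
    (CQ e K).det * (∏ k : Fin (m + 1), ∫ x in K, |x (ix e k)|) ^ 2 ≤
      Real.exp (7 / 20 * q) / 16 ^ (m + 1) * (volume K).toReal ^ (2 * (m + 1) + 2) := by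
  have hKb := hK
  obtain ⟨hc, hcp, hint⟩ := hK
  have hfin : volume K ≠ ⊤ := hcp.measure_lt_top.ne
  have hV : 0 < (volume K).toReal := by
    refine ENNReal.toReal_pos ?_ hfin
    have h1 := isOpen_interior.measure_pos volume hint
    exact (h1.trans_le (measure_mono interior_subset)).ne'
  set P : Set (Fin n → ℝ) := K ∩ Or e with hP
  have hPc : Convex ℝ P := hc.inter or_convex
  have hPk : IsCompact P := hcp.inter_right or_closed
  have hVP : (volume K).toReal = 2 ^ (m + 1) * (volume P).toReal := by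
    have h := reduct_univ1 hs (f := fun _ => (1 : ℝ)) (integrableOn_const hfin) (fun _ _ => rfl)
    rw [setIntegral_const, setIntegral_const] at h
    simpa [Measure.real] using h
  have hI : ∀ f : (Fin n → ℝ) → ℝ, Continuous f →
      (∀ (k : Fin (m + 1)) x, f (refl (ix e k) x) = f x) →
      ∫ x in K, f x = 2 ^ (m + 1) * ∫ x in P, f x := fun f hf hfs =>
    reduct_univ1 hs (hf.continuousOn.integrableOn_compact hcp) hfs
  have h2n : (0 : ℝ) < 2 ^ (m + 1) := by positivity
  have hVp : 0 < (volume P).toReal := by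
    rw [hVP] at hV
    exact pos_of_mul_pos_right hV h2n.le
  have hPne : P.Nonempty := by
    rw [nonempty_iff_ne_empty]
    intro h
    rw [h, measure_empty, ENNReal.toReal_zero] at hVp
    exact lt_irrefl _ hVp
  -- the product form
  set W : Set ((Fin q → ℝ) × (Fin (m + 1) → ℝ)) := sp e ⁻¹' P with hW
  have hWi : W = (fun z => (yp e z, xp e z)) '' P := by
    ext w
    constructor
    · intro hw
      exact ⟨sp e w, hw, Prod.ext (yp_sp e w) (xp_sp e w)⟩
    · rintro ⟨z, hz, rfl⟩
      show sp e (yp e z, xp e z) ∈ P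
      rw [sp_yx]
      exact hz
  have hWk : IsCompact W := by
    rw [hWi]
    exact hPk.image ((cont_yp e).prodMk (cont_xp e))
  have hWc : Convex ℝ W := by
    intro w hw w' hw' a b ha hb hab
    show sp e (a • w + b • w') ∈ P
    rw [sp_lin]
    exact hPc hw hw' ha hb hab
  have hWne : W.Nonempty := by
    rw [hWi]
    exact hPne.image _
  have hWpos : ∀ z ∈ W, ∀ k, 0 ≤ z.2 k := by
    intro z hz k
    have h := hz.2 k
    have h2 : sp e z (ix e k) = z.2 k := sp_inr e z k
    rwa [h2] at h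
  have hWlow : ∀ z ∈ W, ∀ y : Fin (m + 1) → ℝ, (∀ k, 0 ≤ y k ∧ y k ≤ z.2 k) → (z.1, y) ∈ W := by
    intro z hz y hy
    have h1 : ∀ k, sp e (z.1, y) (ix e k) = y k := fun k => sp_inr e (z.1, y) k
    have h2 : ∀ k, sp e z (ix e k) = z.2 k := fun k => sp_inr e z k
    refine ⟨solid1 hc hs hz.1 (fun j => ?_) (fun k => ?_), fun k => ?_⟩
    · exact (sp_inl e (z.1, y) j).trans (sp_inl e z j).symm
    · rw [h1, h2, abs_of_nonneg (hy k).1, abs_of_nonneg (hWpos z hz k)]
      exact (hy k).2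
    · rw [h1]
      exact (hy k).1
  -- Fubini
  have fub : ∀ f : (Fin q → ℝ) → ℝ, Continuous f →
      ∫ x : Fin q → ℝ, f x * (volume (fib W x)).toReal = ∫ z in P, f (yp e z) := by
    intro f hf
    rw [int_split e hPk (F := fun z => f (yp e z)) (hf.comp (cont_yp e))]
    refine integral_congr_ae (Filter.Eventually.of_forall fun x => ?_)
    simp only [yp_sp]
    rw [setIntegral_const, smul_eq_mul, mul_comm]
    rfl
  have fub1 : ∫ x : Fin q → ℝ, (volume (fib W x)).toReal = (volume P).toReal := by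
    have h := fub (fun _ => 1) continuous_const
    simpa [Measure.real] using h
  have fubk : ∀ k : Fin (m + 1), ∫ x : Fin q → ℝ, ∫ y in fib W x, y k = ∫ z in P, z (ix e k) := by
    intro k
    rw [int_split e hPk (F := fun z => z (ix e k)) (continuous_apply _)]
    refine integral_congr_ae (Filter.Eventually.of_forall fun x => ?_)
    have h2 : ∀ y : Fin (m + 1) → ℝ, sp e (x, y) (ix e k) = y k := fun y => sp_inr e (x, y) k
    simp only [h2]
    rfl
  set T : Fin q → ℝ := fun j => centroid K (iy e j) with hT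
  have hri : ∀ (j : Fin q) (k : Fin (m + 1)) (x : Fin n → ℝ), refl (ix e k) x (iy e j) = x (iy e j) :=
    fun j k x => refl_ne (iy_ne_ix j k) x
  have hT1 : ∀ j, T j * (volume P).toReal = ∫ x in P, x (iy e j) := by
    intro j
    have h1 : T j * (volume K).toReal = ∫ x in K, x (iy e j) := by
      rw [hT]
      simp only [centroid]
      field_simp
    rw [hI (fun x => x (iy e j)) (continuous_apply _) (fun k x => hri j k x), hVP] at h1
    have h2 : 2 ^ (m + 1) * (T j * (volume P).toReal) = 2 ^ (m + 1) * ∫ x in P, x (iy e j) := by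
      rw [← h1]; ring
    exact mul_left_cancel₀ h2n.ne' h2
  have hf1 := real_q hWk hWc hWne hWpos hWlow (T := T) (by
    intro j
    rw [fub1, hT1 j, fub (fun x => x j) (continuous_apply j)]
    rfl)
  simp only [fubk] at hf1
  rw [fub1] at hf1
  -- the marginal density
  set v : ℝ := (volume P).toReal with hv
  set φ : (Fin q → ℝ) → ℝ := fun x => (volume (fib W x)).toReal / v with hφ
  have hLC : H375.LogConcave φ := marg_lc hWk hWc hVp
  have hint' : ∀ f : (Fin q → ℝ) → ℝ, Continuous f →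
      ∫ x, f x * φ x = v⁻¹ * ∫ z in P, f (yp e z) := by
    intro f hf
    rw [← fub f hf, ← integral_const_mul]
    refine integral_congr_ae (Filter.Eventually.of_forall fun x => ?_)
    simp only [hφ]
    ring
  have h1 : ∫ x, φ x = 1 := by
    have h := hint' (fun _ => 1) continuous_const
    simp only [one_mul] at h
    rw [h]
    simp only [integral_const, smul_eq_mul, mul_one, Measure.real, Measure.restrict_apply_univ]
    exact inv_mul_cancel₀ hVp.ne'
  have hcovφ : H375.cov φ = CQ e K := by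
    ext i j
    have e1 : ∫ x : Fin q → ℝ, x i * x j * φ x = v⁻¹ * ∫ z in P, z (iy e i) * z (iy e j) :=
      hint' (fun x => x i * x j) (by fun_prop)
    have e2 : ∀ j, ∫ x : Fin q → ℝ, x j * φ x = T j := by
      intro j
      have h : ∫ x : Fin q → ℝ, x j * φ x = v⁻¹ * ∫ z in P, z (iy e j) :=
        hint' (fun x => x j) (continuous_apply j)
      rw [h, ← hT1 j]
      field_simp
    have e3 : ∫ z in K, z (iy e i) * z (iy e j) =
        2 ^ (m + 1) * ∫ z in P, z (iy e i) * z (iy e j) :=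
      hI (fun z => z (iy e i) * z (iy e j)) (by fun_prop) (fun k x => by rw [hri, hri])
    show (∫ x : Fin q → ℝ, x i * x j * φ x) - (∫ x : Fin q → ℝ, x i * φ x) *
      (∫ x : Fin q → ℝ, x j * φ x) = covMatrix K (iy e i) (iy e j)
    rw [e1, e2, e2, cov_eq hcp hV.ne', e3, hVP]
    simp only [hT]
    field_simp
  obtain ⟨-, hpd, -, hsup, -⟩ := H375.functional q φ hLC h1
  have hs1 := hsup T
  rw [hcovφ] at hs1 hpd
  set s : ℝ := (volume (fib W T)).toReal with hsd
  have hφT : φ T = s / v := rfl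
  rw [hφT] at hs1
  have hdet0 : 0 ≤ (CQ e K).det := hpd.det_pos.le
  have hsv : (s / v) ^ 2 * (CQ e K).det ≤ Real.exp (7 / 20 * q) := by
    have h0 : 0 ≤ s / v * Real.sqrt (CQ e K).det := by positivity
    have h3 := pow_le_pow_left₀ h0 hs1 2
    rw [mul_pow, Real.sq_sqrt hdet0, ← Real.exp_nat_mul] at h3
    refine h3.trans (le_of_eq ?_)
    congr 1
    push_cast
    ring
  set M : Fin (m + 1) → ℝ := fun k => ∫ x in P, x (ix e k) with hMd
  have hs0 : 0 ≤ s := ENNReal.toReal_nonneg
  have hM0 : ∀ k, 0 ≤ M k := fun k =>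
    setIntegral_nonneg hPk.measurableSet fun x hx => hx.2 k
  have hMK : ∀ k, ∫ x in K, |x (ix e k)| = 2 ^ (m + 1) * M k := by
    intro k
    rw [hI (fun x => |x (ix e k)|) (by fun_prop) (fun j x => refl_abs (ix e j) (ix e k) x)]
    congr 1
    exact setIntegral_congr_fun hPk.measurableSet fun x hx => abs_of_nonneg (hx.2 k)
  have hU : (∏ k, M k) * 2 ^ (m + 1) ≤ v ^ (m + 1) * s := by
    have h1 : ∏ k, (2 * M k) ≤ v ^ (m + 1) * s := hf1
    rw [Finset.prod_mul_distrib, Finset.prod_const, Finset.card_univ, Fintype.card_fin] at h1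
    linarith
  have hU0 : 0 ≤ ∏ k, M k := Finset.prod_nonneg fun i _ => hM0 i
  have hprod : ∏ k : Fin (m + 1), ∫ x in K, |x (ix e k)| = (2 ^ (m + 1)) ^ (m + 1) * ∏ k, M k := by
    rw [Finset.prod_congr rfl fun k _ => hMK k, Finset.prod_mul_distrib, Finset.prod_const,
      Finset.card_univ, Fintype.card_fin]
  rw [hprod, hVP]
  set N : ℝ := (2 : ℝ) ^ (m + 1) with hN
  have h3 : ((∏ k, M k) * N) ^ 2 ≤ (v ^ (m + 1) * s) ^ 2 :=
    pow_le_pow_left₀ (mul_nonneg hU0 h2n.le) hU 2
  have h16 : (16 : ℝ) ^ (m + 1) = N ^ 4 := by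
    rw [hN, ← pow_mul, mul_comm (m + 1) 4, pow_mul]
    norm_num
  rw [h16]
  have h5 : (s / v) ^ 2 * (CQ e K).det * v ^ 2 = s ^ 2 * (CQ e K).det := by
    field_simp
  have h6 : s ^ 2 * (CQ e K).det ≤ Real.exp (7 / 20 * q) * v ^ 2 := by
    rw [← h5]
    exact mul_le_mul_of_nonneg_right hsv (by positivity)
  have h7 : (CQ e K).det * (N ^ (m + 1) * ∏ k, M k) ^ 2 * N ^ 2 ≤
      Real.exp (7 / 20 * q) / N ^ 4 * (N * v) ^ (2 * (m + 1) + 2) * N ^ 2 := by
    calc (CQ e K).det * (N ^ (m + 1) * ∏ k, M k) ^ 2 * N ^ 2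
        = (CQ e K).det * (N ^ (m + 1)) ^ 2 * ((∏ k, M k) * N) ^ 2 := by ring
      _ ≤ (CQ e K).det * (N ^ (m + 1)) ^ 2 * (v ^ (m + 1) * s) ^ 2 := by gcongr
      _ = (N ^ (m + 1) * v ^ (m + 1)) ^ 2 * (s ^ 2 * (CQ e K).det) := by ring
      _ ≤ (N ^ (m + 1) * v ^ (m + 1)) ^ 2 * (Real.exp (7 / 20 * q) * v ^ 2) := by gcongr
      _ = _ := by
        have e1 : (N * v) ^ (2 * (m + 1) + 2) = (N ^ (m + 1) * v ^ (m + 1)) ^ 2 * (N * v) ^ 2 := by
          rw [← mul_pow]; ring
        rw [e1]
        field_simp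
  exact le_of_mul_le_mul_right h7 (by positivity)

end Vale.Agent.P254.H4
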