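import Vale.Agent.P254.H242.Exch

/-!
P254: bodies which are symmetric in the coordinates `e.symm (inr k)`.
-/

open MeasureTheory Set Matrix

namespace Vale.Agent.P254.H4

open Unc Unc.FB H242

variable {n q p : ℕ}

/-- the `k`-th symmetric coordinate -/
def ix (e : Fin n ≃ Fin q ⊕ Fin p) (k : Fin p) : Fin n := e.symm (Sum.inr k)

/-- the `j`-th free coordinate -/
def iy (e : Fin n ≃ Fin q ⊕ Fin p) (j : Fin q) : Fin n := e.symm (Sum.inl j)

theorem ix_inj {e : Fin n ≃ Fin q ⊕ Fin p} {j k : Fin p} (h : ix e j = ix e k) : j = k :=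
  Sum.inr_injective (e.symm.injective h)

theorem iy_inj {e : Fin n ≃ Fin q ⊕ Fin p} {j k : Fin q} (h : iy e j = iy e k) : j = k :=
  Sum.inl_injective (e.symm.injective h)

theorem iy_ne_ix {e : Fin n ≃ Fin q ⊕ Fin p} (j : Fin q) (k : Fin p) : iy e j ≠ ix e k := by
  intro h
  exact Sum.inl_ne_inr (e.symm.injective h)

/-- invariant under the changes of sign of the coordinates `ix e k` -/
def SymE (e : Fin n ≃ Fin q ⊕ Fin p) (K : Set (Fin n → ℝ)) : Prop :=
  ∀ x ∈ K, ∀ y : Fin n → ℝ, (∀ j, y (iy e j) = x (iy e j)) → (∀ k, |y (ix e k)| = |x (ix e k)|) →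
    y ∈ K

variable {e : Fin n ≃ Fin q ⊕ Fin p} {K : Set (Fin n → ℝ)}

lemma refl_mem (hu : SymE e K) (k : Fin p) {x : Fin n → ℝ} (hx : x ∈ K) : refl (ix e k) x ∈ K :=
  hu x hx _ (fun j => refl_ne (iy_ne_ix j k) x) fun i => refl_abs (ix e k) (ix e i) x

lemma sym_refl (hu : SymE e K) (k : Fin p) : refl (ix e k) ⁻¹' K = K := by
  ext x
  constructor
  · intro h
    have := refl_mem hu k h
    rwa [refl_refl] at this
  · intro h
    exact refl_mem hu k h

lemma reduct1 (hu : SymE e K) {f : (Fin n → ℝ) → ℝ} (hf : IntegrableOn f K)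
    (hfs : ∀ (k : Fin p) x, f (refl (ix e k) x) = f x) (S : Finset (Fin p)) :
    ∫ x in K, f x = 2 ^ S.card * ∫ x in K ∩ {x | ∀ i ∈ S, 0 ≤ x (ix e i)}, f x := by
  classical
  induction S using Finset.induction_on with
  | empty => simp
  | insert j S hj ih =>
    rw [ih, Finset.card_insert_of_notMem hj]
    have hinv : refl (ix e j) ⁻¹' (K ∩ {x | ∀ i ∈ S, 0 ≤ x (ix e i)}) =
        K ∩ {x | ∀ i ∈ S, 0 ≤ x (ix e i)} := by
      ext x
      have hx : refl (ix e j) x ∈ K ↔ x ∈ K := by
        rw [← mem_preimage, sym_refl hu]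
      simp only [mem_preimage, mem_inter_iff, hx, mem_ofPred_eq]
      refine and_congr_right fun _ => forall₂_congr fun i hi => ?_
      have hne : ix e i ≠ ix e j := by
        intro h
        exact hj (ix_inj h ▸ hi)
      rw [refl_ne hne]
    have h1 := half (ix e j) hinv (hf.mono_set inter_subset_left) (hfs j)
    rw [h1]
    have e : K ∩ {x : Fin n → ℝ | ∀ i ∈ S, 0 ≤ x (ix e i)} ∩ {x | 0 ≤ x (ix e j)} =
        K ∩ {x | ∀ i ∈ insert j S, 0 ≤ x (ix e i)} := by
      ext x
      simp only [mem_inter_iff, mem_ofPred_eq, Finset.forall_mem_insert]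
      tauto
    rw [e]
    ring

lemma update_mem1 (hc : Convex ℝ K) (hu : SymE e K) {x : Fin n → ℝ} (hx : x ∈ K)
    (k : Fin p) {t : ℝ} (ht : |t| ≤ |x (ix e k)|) : Function.update x (ix e k) t ∈ K := by
  set j := ix e k with hj
  by_cases h0 : x j = 0
  · rw [h0, abs_zero, abs_nonpos_iff] at ht
    rw [ht, ← h0, Function.update_eq_self]
    exact hx
  · set s : ℝ := t / x j with hs
    have hs1 : |s| ≤ 1 := by
      rw [hs, abs_div]
      exact div_le_one_of_le₀ ht (abs_nonneg _)
    rw [abs_le] at hs1
    have hr : refl j x ∈ K := refl_mem hu k hx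
    have h := hc hx hr (a := (1 + s) / 2) (b := (1 - s) / 2) (by linarith) (by linarith) (by ring)
    have e : ((1 + s) / 2) • x + ((1 - s) / 2) • refl j x = Function.update x j t := by
      funext i
      by_cases hi : i = j
      · rw [hi, Pi.add_apply, Pi.smul_apply, Pi.smul_apply, refl_self, Function.update_self,
          smul_eq_mul, smul_eq_mul]
        have : s * x j = t := by rw [hs]; field_simp
        linear_combination this
      · rw [Pi.add_apply, Pi.smul_apply, Pi.smul_apply, refl_ne hi, Function.update_of_ne hi,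
          smul_eq_mul, smul_eq_mul]
        ring
    rwa [e] at h

lemma solid1 (hc : Convex ℝ K) (hu : SymE e K) {x : Fin n → ℝ} (hx : x ∈ K)
    {y : Fin n → ℝ} (h0 : ∀ j, y (iy e j) = x (iy e j))
    (hy : ∀ k : Fin p, |y (ix e k)| ≤ |x (ix e k)|) : y ∈ K := by
  classical
  have h : ∀ S : Finset (Fin p),
      (fun i : Fin n => if ∃ k ∈ S, ix e k = i then y i else x i) ∈ K := by
    intro S
    induction S using Finset.induction_on with
    | empty => simpa using hx
    | insert j S hj ih =>
      have hnj : ¬ ∃ k ∈ S, ix e k = ix e j := by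
        rintro ⟨k, hk, hkj⟩
        exact hj (ix_inj hkj ▸ hk)
      have h1 := update_mem1 hc hu ih j (t := y (ix e j))
        (by simp only [hnj, if_false]; exact hy j)
      have e : Function.update (fun i : Fin n => if ∃ k ∈ S, ix e k = i then y i else x i)
          (ix e j) (y (ix e j)) = fun i => if ∃ k ∈ insert j S, ix e k = i then y i else x i := by
        funext i
        by_cases hi : i = ix e j
        · subst hi
          simp
        · rw [Function.update_of_ne hi]
          have : (∃ k ∈ insert j S, ix e k = i) ↔ ∃ k ∈ S, ix e k = i := by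
            constructor
            · rintro ⟨k, hk, hki⟩
              rcases Finset.mem_insert.1 hk with rfl | hk
              · exact absurd hki.symm hi
              · exact ⟨k, hk, hki⟩
            · rintro ⟨k, hk, hki⟩
              exact ⟨k, Finset.mem_insert_of_mem hk, hki⟩
          simp only [this]
      rwa [e] at h1
  have h1 := h Finset.univ
  have e2 : (fun i : Fin n => if ∃ k ∈ (Finset.univ : Finset (Fin p)), ix e k = i then y i
      else x i) = y := by
    funext i
    obtain ⟨s, rfl⟩ := e.symm.surjective i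
    rcases s with j | k
    · have : ¬ ∃ k ∈ (Finset.univ : Finset (Fin p)), ix e k = e.symm (Sum.inl j) := by
        rintro ⟨k, _, hk⟩
        exact iy_ne_ix j k hk.symm
      simp only [this, if_false]
      exact (h0 j).symm
    · have : ∃ l ∈ (Finset.univ : Finset (Fin p)), ix e l = e.symm (Sum.inr k) :=
        ⟨k, Finset.mem_univ _, rfl⟩
      simp only [this, if_true]
  rwa [e2] at h1

variable (e) in
/-- the part of the space where the symmetric coordinates are nonnegative -/
def Or : Set (Fin n → ℝ) := {x | ∀ k : Fin p, 0 ≤ x (ix e k)}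

lemma or_closed : IsClosed (Or e) := by
  have : Or e = ⋂ k : Fin p, {x | 0 ≤ x (ix e k)} := by
    ext x; simp [Or]
  rw [this]
  exact isClosed_iInter fun i => isClosed_le continuous_const (continuous_apply _)

lemma or_convex : Convex ℝ (Or e) := by
  intro x hx y hy a b ha hb _ k
  have h1 := hx k
  have h2 := hy k
  simp only [Pi.add_apply, Pi.smul_apply, smul_eq_mul]
  positivity

lemma reduct_univ1 (hu : SymE e K) {f : (Fin n → ℝ) → ℝ} (hf : IntegrableOn f K)
    (hfs : ∀ (k : Fin p) x, f (refl (ix e k) x) = f x) :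
    ∫ x in K, f x = 2 ^ p * ∫ x in K ∩ Or e, f x := by
  have h := reduct1 hu hf hfs Finset.univ
  simpa [Or] using h

lemma int_odd1 (hu : SymE e K) (k : Fin p) {f : (Fin n → ℝ) → ℝ}
    (hfs : ∀ x, f (refl (ix e k) x) = -f x) : ∫ x in K, f x = 0 := by
  have h := refl_int (ix e k) K f
  rw [sym_refl hu k] at h
  simp_rw [hfs] at h
  rw [integral_neg] at h
  linarith

variable (e) in
/-- the covariance matrix of the free coordinates -/
noncomputable def CQ (K : Set (Fin n → ℝ)) : Matrix (Fin q) (Fin q) ℝ :=
  Matrix.of fun i j => covMatrix K (iy e i) (iy e j)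

/-- the block structure of the covariance matrix -/
lemma cov_blocks (hu : SymE e K) :
    covMatrix K = (fromBlocks (CQ e K) 0 0
      (diagonal fun k : Fin p => (volume K).toReal⁻¹ * ∫ x in K, x (ix e k) ^ 2)).submatrix e e := by
  have hc : ∀ k : Fin p, centroid K (ix e k) = 0 := by
    intro k
    rw [centroid, int_odd1 hu k (f := fun x => x (ix e k)) (refl_self (ix e k)), mul_zero]
  ext i j
  obtain ⟨s, rfl⟩ := e.symm.surjective i
  obtain ⟨t, rfl⟩ := e.symm.surjective j
  rw [submatrix_apply, e.apply_symm_apply, e.apply_symm_apply]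
  rcases s with a | a <;> rcases t with b | b
  · rw [fromBlocks_apply₁₁]
    rfl
  · rw [fromBlocks_apply₁₂, Matrix.zero_apply]
    change covMatrix K (iy e a) (ix e b) = 0
    rw [covMatrix]
    simp only [hc, sub_zero]
    rw [int_odd1 hu b (f := fun x => (x (iy e a) - centroid K (iy e a)) * x (ix e b)), mul_zero]
    intro x
    rw [refl_self, refl_ne (iy_ne_ix a b)]
    ring
  · rw [fromBlocks_apply₂₁, Matrix.zero_apply]
    change covMatrix K (ix e a) (iy e b) = 0
    rw [covMatrix]
    simp only [hc, sub_zero]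
    rw [int_odd1 hu a (f := fun x => x (ix e a) * (x (iy e b) - centroid K (iy e b))), mul_zero]
    intro x
    rw [refl_self, refl_ne (iy_ne_ix b a)]
    ring
  · rw [fromBlocks_apply₂₂, diagonal_apply]
    change covMatrix K (ix e a) (ix e b) = _
    rw [covMatrix]
    simp only [hc, sub_zero]
    by_cases hij : a = b
    · subst hij
      simp only [if_true, pow_two]
    · rw [if_neg hij, int_odd1 hu a (f := fun x => x (ix e a) * x (ix e b)), mul_zero]
      intro x
      rw [refl_self, refl_ne (fun h => hij (ix_inj h).symm)]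
      ring

lemma cov_det (hu : SymE e K) :
    (covMatrix K).det = (CQ e K).det *
      ∏ k : Fin p, ((volume K).toReal⁻¹ * ∫ x in K, x (ix e k) ^ 2) := by
  conv_lhs => rw [cov_blocks hu, det_submatrix_equiv_self, det_fromBlocks_zero₁₂, det_diagonal]

end Vale.Agent.P254.H4
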