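import Vale.Agent.P254.H4.Real
import Vale.Agent.P254.H4.SymE
import Vale.Agent.P254.H242.Blk
import Vale.Agent.P254.H375.Pack

/-!
P254: the bound of `det Cov / |K| ^ 2` for bodies symmetric in `p` coordinates, `q = n - p`.
-/

open MeasureTheory Set Matrix

namespace Vale.Agent.P254.H4

open Unc Unc.FB H242 FV

variable {n q m : ℕ}

theorem marg_lc {W : Set ((Fin q → ℝ) × (Fin m → ℝ))} (hW : IsCompact W) (hc : Convex ℝ W) {v : ℝ}
    (hv : 0 < v) : H375.LogConcave fun x => (volume (fib W x)).toReal / v := by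
  have hcl : ∀ x, IsClosed (fib W x) := fun x =>
    hW.isClosed.preimage (continuous_const.prodMk continuous_id)
  have hfin : ∀ x, volume (fib W x) ≠ ⊤ := by
    intro x
    have h : IsCompact (fib W x) := by
      refine (hW.image continuous_snd).of_isClosed_subset (hcl x) ?_
      intro y hy
      exact ⟨(x, y), hy, rfl⟩
    exact h.measure_lt_top.ne
  refine ⟨fun x => div_nonneg ENNReal.toReal_nonneg hv.le, fun x y t ht => ?_⟩
  rcases ht.1.eq_or_lt with h0 | h0
  · subst h0
    simp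
  rcases ht.2.eq_or_lt with h1 | h1
  · subst h1
    simp
  have h2 := Unc.bm_mul (s := 1 - t) (t := t) (by linarith) h0 (by ring) (hcl x).measurableSet
    (hcl y).measurableSet (hcl ((1 - t) • x + t • y)).measurableSet (by
      intro a ha b hb
      have h3 := hc ha hb (by linarith : (0 : ℝ) ≤ 1 - t) h0.le (by ring)
      exact h3)
  have h3 := ENNReal.toReal_mono (hfin _) h2
  rw [ENNReal.toReal_mul, ← ENNReal.toReal_rpow, ← ENNReal.toReal_rpow] at h3
  simp only
  rw [Real.div_rpow ENNReal.toReal_nonneg hv.le, Real.div_rpow ENNReal.toReal_nonneg hv.le,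
    div_mul_div_comm, ← Real.rpow_add hv]
  have e : (1 - t + t : ℝ) = 1 := by ring
  rw [e, Real.rpow_one]
  exact div_le_div_of_nonneg_right h3 hv.le

theorem sym_bound {e : Fin n ≃ Fin q ⊕ Fin (m + 1)} {K : Set (Fin n → ℝ)} (hK : IsConvexBody K)
    (hs : SymE e K) :
    Dn K ≤ Real.exp (7 / 20 * q) * (((n : ℝ) + 1) / (8 * ((n : ℝ) + 2))) ^ (m + 1) := by
  have hKb := hK
  obtain ⟨hc, hcp, hint⟩ := hK
  have hfin : volume K ≠ ⊤ := hcp.measure_lt_top.ne
  have hV : 0 < (volume K).toReal := by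
    refine ENNReal.toReal_pos ?_ hfin
    have h1 := isOpen_interior.measure_pos volume hint
    exact (h1.trans_le (measure_mono interior_subset)).ne'
  set P : Set (Fin n → ℝ) := K ∩ Or e with hP
  have hPc : Convex ℝ P := hc.inter or_convex
  have hPk : IsCompact P := hcp.inter_right or_closed
  have hVP : (volume K).toReal = 2 ^ (m + 1) * (volume P).toReal := by
    have h := reduct_univ1 hs (f := fun _ => (1 : ℝ)) (integrableOn_const hfin) (fun _ _ => rfl)
    rw [setIntegral_const, setIntegral_const] at h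
    simpa [Measure.real] using h
  have hI : ∀ f : (Fin n → ℝ) → ℝ, Continuous f →
      (∀ (k : Fin (m + 1)) x, f (refl (ix e k) x) = f x) →
      ∫ x in K, f x = 2 ^ (m + 1) * ∫ x in P, f x := fun f hf hfs =>
    reduct_univ1 hs (hf.continuousOn.integrableOn_compact hcp) hfs
  have h2n : (0 : ℝ) < 2 ^ (m + 1) := by positivity
  have hVp : 0 < (volume P).toReal := by
    rw [hVP] at hV
    exact pos_of_mul_pos_right hV h2n.le
  have hPne : P.Nonempty := by
    rw [nonempty_iff_ne_empty]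
    intro h
    rw [h, measure_empty, ENNReal.toReal_zero] at hVp
    exact lt_irrefl _ hVp
  -- the product form
  set W : Set ((Fin q → ℝ) × (Fin (m + 1) → ℝ)) := sp e ⁻¹' P with hW
  have hWi : W = (fun z => (yp e z, xp e z)) '' P := by
    ext w
    constructor
    · intro hw
      exact ⟨sp e w, hw, Prod.ext (yp_sp e w) (xp_sp e w)⟩
    · rintro ⟨z, hz, rfl⟩
      show sp e (yp e z, xp e z) ∈ P
      rw [sp_yx]
      exact hz
  have hWk : IsCompact W := by
    rw [hWi]
    exact hPk.image ((cont_yp e).prodMk (cont_xp e))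
  have hWc : Convex ℝ W := by
    intro w hw w' hw' a b ha hb hab
    show sp e (a • w + b • w') ∈ P
    rw [sp_lin]
    exact hPc hw hw' ha hb hab
  have hWne : W.Nonempty := by
    rw [hWi]
    exact hPne.image _
  have hWpos : ∀ z ∈ W, ∀ k, 0 ≤ z.2 k := by
    intro z hz k
    have h := hz.2 k
    have h2 : sp e z (ix e k) = z.2 k := sp_inr e z k
    rwa [h2] at h
  have hWlow : ∀ z ∈ W, ∀ y : Fin (m + 1) → ℝ, (∀ k, 0 ≤ y k ∧ y k ≤ z.2 k) → (z.1, y) ∈ W := by
    intro z hz y hy
    have h1 : ∀ k, sp e (z.1, y) (ix e k) = y k := fun k => sp_inr e (z.1, y) k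
    have h2 : ∀ k, sp e z (ix e k) = z.2 k := fun k => sp_inr e z k
    refine ⟨solid1 hc hs hz.1 (fun j => ?_) (fun k => ?_), fun k => ?_⟩
    · exact (sp_inl e (z.1, y) j).trans (sp_inl e z j).symm
    · rw [h1, h2, abs_of_nonneg (hy k).1, abs_of_nonneg (hWpos z hz k)]
      exact (hy k).2
    · rw [h1]
      exact (hy k).1
  -- Fubini
  have fub : ∀ f : (Fin q → ℝ) → ℝ, Continuous f →
      ∫ x : Fin q → ℝ, f x * (volume (fib W x)).toReal = ∫ z in P, f (yp e z) := by
    intro f hf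
    rw [int_split e hPk (F := fun z => f (yp e z)) (hf.comp (cont_yp e))]
    refine integral_congr_ae (Filter.Eventually.of_forall fun x => ?_)
    simp only [yp_sp]
    rw [setIntegral_const, smul_eq_mul, mul_comm]
    rfl
  have fub1 : ∫ x : Fin q → ℝ, (volume (fib W x)).toReal = (volume P).toReal := by
    have h := fub (fun _ => 1) continuous_const
    simpa [Measure.real] using h
  have fubk : ∀ k : Fin (m + 1), ∫ x : Fin q → ℝ, ∫ y in fib W x, y k = ∫ z in P, z (ix e k) := by
    intro k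
    rw [int_split e hPk (F := fun z => z (ix e k)) (continuous_apply _)]
    refine integral_congr_ae (Filter.Eventually.of_forall fun x => ?_)
    have h2 : ∀ y : Fin (m + 1) → ℝ, sp e (x, y) (ix e k) = y k := fun y => sp_inr e (x, y) k
    simp only [h2]
    rfl
  set T : Fin q → ℝ := fun j => centroid K (iy e j) with hT
  have hri : ∀ (j : Fin q) (k : Fin (m + 1)) (x : Fin n → ℝ), refl (ix e k) x (iy e j) = x (iy e j) :=
    fun j k x => refl_ne (iy_ne_ix j k) x
  have hT1 : ∀ j, T j * (volume P).toReal = ∫ x in P, x (iy e j) := by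
    intro j
    have h1 : T j * (volume K).toReal = ∫ x in K, x (iy e j) := by
      rw [hT]
      simp only [centroid]
      field_simp
    rw [hI (fun x => x (iy e j)) (continuous_apply _) (fun k x => hri j k x), hVP] at h1
    have h2 : 2 ^ (m + 1) * (T j * (volume P).toReal) = 2 ^ (m + 1) * ∫ x in P, x (iy e j) := by
      rw [← h1]; ring
    exact mul_left_cancel₀ h2n.ne' h2
  have hf1 := real_q hWk hWc hWne hWpos hWlow (T := T) (by
    intro j
    rw [fub1, hT1 j, fub (fun x => x j) (continuous_apply j)]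
    rfl)
  simp only [fubk] at hf1
  rw [fub1] at hf1
  have hA : ∀ k : Fin (m + 1), ∫ x in K, x (ix e k) ^ 2 = 2 ^ (m + 1) * ∫ x in P, x (ix e k) ^ 2 :=
    fun k => hI (fun x => x (ix e k) ^ 2) (by fun_prop)
      (fun j x => by rw [← sq_abs, refl_abs, sq_abs])
  have hb1 : ∀ k : Fin (m + 1), (volume P).toReal * ∫ x in P, x (ix e k) ^ 2 ≤
      2 * ((n : ℝ) + 1) / ((n : ℝ) + 2) * (∫ x in P, x (ix e k)) ^ 2 := fun k =>
    berwald hPc hPk (ix e k) (fun x hx => hx.2 k)
  -- the marginal density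
  set v : ℝ := (volume P).toReal with hv
  set φ : (Fin q → ℝ) → ℝ := fun x => (volume (fib W x)).toReal / v with hφ
  have hLC : H375.LogConcave φ := marg_lc hWk hWc hVp
  have hint' : ∀ f : (Fin q → ℝ) → ℝ, Continuous f →
      ∫ x, f x * φ x = v⁻¹ * ∫ z in P, f (yp e z) := by
    intro f hf
    rw [← fub f hf, ← integral_const_mul]
    refine integral_congr_ae (Filter.Eventually.of_forall fun x => ?_)
    simp only [hφ]
    ring
  have h1 : ∫ x, φ x = 1 := by
    have h := hint' (fun _ => 1) continuous_const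
    simp only [one_mul] at h
    rw [h]
    simp only [integral_const, smul_eq_mul, mul_one, Measure.real, Measure.restrict_apply_univ]
    exact inv_mul_cancel₀ hVp.ne'
  have hcovφ : H375.cov φ = CQ e K := by
    ext i j
    have e1 : ∫ x : Fin q → ℝ, x i * x j * φ x = v⁻¹ * ∫ z in P, z (iy e i) * z (iy e j) :=
      hint' (fun x => x i * x j) (by fun_prop)
    have e2 : ∀ j, ∫ x : Fin q → ℝ, x j * φ x = T j := by
      intro j
      have h : ∫ x : Fin q → ℝ, x j * φ x = v⁻¹ * ∫ z in P, z (iy e j) :=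
        hint' (fun x => x j) (continuous_apply j)
      rw [h, ← hT1 j]
      field_simp
    have e3 : ∫ z in K, z (iy e i) * z (iy e j) =
        2 ^ (m + 1) * ∫ z in P, z (iy e i) * z (iy e j) :=
      hI (fun z => z (iy e i) * z (iy e j)) (by fun_prop) (fun k x => by rw [hri, hri])
    show (∫ x : Fin q → ℝ, x i * x j * φ x) - (∫ x : Fin q → ℝ, x i * φ x) *
      (∫ x : Fin q → ℝ, x j * φ x) = covMatrix K (iy e i) (iy e j)
    rw [e1, e2, e2, cov_eq hcp hV.ne', e3, hVP]
    simp only [hT]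
    field_simp
  obtain ⟨-, hpd, -, hsup, -⟩ := H375.functional q φ hLC h1
  have hs1 := hsup T
  rw [hcovφ] at hs1 hpd
  set s : ℝ := (volume (fib W T)).toReal with hsd
  have hφT : φ T = s / v := rfl
  rw [hφT] at hs1
  have hdet0 : 0 ≤ (CQ e K).det := hpd.det_pos.le
  have hsv : (s / v) ^ 2 * (CQ e K).det ≤ Real.exp (7 / 20 * q) := by
    have h0 : 0 ≤ s / v * Real.sqrt (CQ e K).det := by positivity
    have h3 := pow_le_pow_left₀ h0 hs1 2
    rw [mul_pow, Real.sq_sqrt hdet0, ← Real.exp_nat_mul] at h3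
    refine h3.trans (le_of_eq ?_)
    congr 1
    push_cast
    ring
  set A : Fin (m + 1) → ℝ := fun k => ∫ x in P, x (ix e k) ^ 2 with hAd
  set M : Fin (m + 1) → ℝ := fun k => ∫ x in P, x (ix e k) with hMd
  have hs0 : 0 ≤ s := ENNReal.toReal_nonneg
  have hA0 : ∀ k, 0 ≤ A k := fun k => integral_nonneg fun x => sq_nonneg _
  have hM0 : ∀ k, 0 ≤ M k := fun k =>
    setIntegral_nonneg hPk.measurableSet fun x hx => hx.2 k
  set r : ℝ := ((n : ℝ) + 1) / ((n : ℝ) + 2) with hr
  have hr0 : 0 ≤ r := by positivity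
  have hb2 : ∀ k, A k / v ≤ 2 * r * (M k / v) ^ 2 := by
    intro k
    have h1 : v * A k ≤ 2 * r * M k ^ 2 := by
      have := hb1 k
      rw [hr]
      calc v * A k ≤ 2 * ((n : ℝ) + 1) / ((n : ℝ) + 2) * M k ^ 2 := this
        _ = _ := by ring
    rw [div_pow, ← mul_div_assoc, div_le_div_iff₀ hVp (by positivity)]
    nlinarith
  have hdet : (covMatrix K).det = (CQ e K).det * ∏ k, (A k / v) := by
    rw [cov_det hs]
    congr 1
    refine Finset.prod_congr rfl fun k _ => ?_
    rw [hA k, hVP]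
    simp only [hAd]
    field_simp
  have hU : (∏ k, (M k / v)) ≤ s / 2 ^ (m + 1) := by
    have h1 : ∏ k, (2 * M k) ≤ v ^ (m + 1) * s := hf1
    rw [Finset.prod_mul_distrib, Finset.prod_const, Finset.card_univ, Fintype.card_fin] at h1
    rw [Finset.prod_div_distrib, Finset.prod_const, Finset.card_univ, Fintype.card_fin,
      div_le_div_iff₀ (by positivity) h2n]
    linarith
  have hU0 : 0 ≤ ∏ k, (M k / v) := Finset.prod_nonneg fun i _ => div_nonneg (hM0 i) hVp.le
  have h1 : ∏ k, (A k / v) ≤ ∏ k : Fin (m + 1), (2 * r * (M k / v) ^ 2) :=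
    Finset.prod_le_prod (fun i _ => div_nonneg (hA0 i) hVp.le) fun i _ => hb2 i
  have h2 : ∏ k : Fin (m + 1), (2 * r * (M k / v) ^ 2) = (2 * r) ^ (m + 1) *
      (∏ k, (M k / v)) ^ 2 := by
    rw [Finset.prod_mul_distrib, Finset.prod_const, Finset.card_univ, Fintype.card_fin,
      Finset.prod_pow]
  have h3 : (∏ k, (M k / v)) ^ 2 ≤ (s / 2 ^ (m + 1)) ^ 2 := pow_le_pow_left₀ hU0 hU 2
  have h4 : ∏ k, (A k / v) ≤ (2 * r) ^ (m + 1) * (s / 2 ^ (m + 1)) ^ 2 :=
    h1.trans (h2.le.trans (mul_le_mul_of_nonneg_left h3 (by positivity)))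
  unfold Dn
  rw [hdet, hVP]
  calc ((CQ e K).det * ∏ k, (A k / v)) / (2 ^ (m + 1) * v) ^ 2
      ≤ (CQ e K).det * ((2 * r) ^ (m + 1) * (s / 2 ^ (m + 1)) ^ 2) / (2 ^ (m + 1) * v) ^ 2 := by
        gcongr
    _ = ((s / v) ^ 2 * (CQ e K).det) * (r / 8) ^ (m + 1) := by
        have e1 : (2 * r) ^ (m + 1) = (r / 8) ^ (m + 1) * 16 ^ (m + 1) := by
          rw [← mul_pow]; congr 1; ring
        have e2 : (16 : ℝ) ^ (m + 1) =
            2 ^ (m + 1) * 2 ^ (m + 1) * (2 ^ (m + 1) * 2 ^ (m + 1)) := by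
          rw [← mul_pow, ← mul_pow]; norm_num
        rw [e1, e2]
        field_simp
    _ ≤ Real.exp (7 / 20 * q) * (r / 8) ^ (m + 1) := by gcongr
    _ = _ := by rw [hr, div_div, mul_comm (8 : ℝ)]

end Vale.Agent.P254.H4
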