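import Vale.Agent.P254.Refl.Good
import Vale.Agent.P254.H4.Body

/-!
P254: the blocks of a system of reflections, one after the other; some coordinates are free.
-/

open MeasureTheory Set Matrix

namespace Vale.Agent.P254.H4

open Refl

theorem blocks_ind {n : ℕ} {β : Type} [DecidableEq β] {D : β → ℝ} {a : Fin n → Fin n → ℝ}
    {lab : Fin n → β} (hB : Blk a lab) (hs : ∀ b, (∃ i, lab i = b) → C2h700.Stp lab a (D b) b)
    {S₀ : Finset β} {K : Set (Fin n → ℝ)} (hc : Convex ℝ K) (hK : IsCompact K)
    (hR : ∀ i, lab i ∈ S₀ → ∀ x ∈ K, rf (a i) x ∈ K) (S : Finset β) (hSS : S ⊆ S₀)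
    (hS : ∀ b ∈ S, ∃ i, lab i = b) :
    ∃ K' : Set (Fin n → ℝ), Convex ℝ K' ∧ IsCompact K' ∧
      (∀ φ : (Fin n → ℝ) → ℝ, Continuous φ → (∀ x y, (∀ i, lab i ∉ S → x i = y i) → φ x = φ y) →
        ∫ x in K', φ x = ∫ x in K, φ x) ∧
      (∀ i, lab i ∈ S → (volume K).toReal * ∫ x in K, x i ^ 2 ≤
        16 * D (lab i) * (∫ x in K', |x i|) ^ 2) ∧
      (∀ i, lab i ∉ S → lab i ∈ S₀ → ∀ x ∈ K', rf (a i) x ∈ K') ∧
      (∀ i, lab i ∈ S → ∀ x ∈ K', rf (Pi.single i 1) x ∈ K') := by
  induction S using Finset.induction_on with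
  | empty =>
    exact ⟨K, hc, hK, fun _ _ _ => rfl, fun i hi => absurd hi (Finset.notMem_empty _),
      fun i _ => hR i, fun i hi => absurd hi (Finset.notMem_empty _)⟩
  | @insert b S hb ih =>
    obtain ⟨K₁, hc₁, hK₁, hq₁, hm₁, hr₁, hu₁⟩ :=
      ih (fun b' hb' => hSS (Finset.mem_insert_of_mem hb'))
        (fun b' hb' => hS b' (Finset.mem_insert_of_mem hb'))
    have hb0 : b ∈ S₀ := hSS (Finset.mem_insert_self b S)
    obtain ⟨K', hc', hK', hφ, hm', hu', hr'⟩ :=
      hs b (hS b (Finset.mem_insert_self b S)) K₁ hc₁ hK₁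
        (fun i hi => hr₁ i (by rw [hi]; exact hb) (by rw [hi]; exact hb0))
    have hv₁ : (volume K₁).toReal = (volume K).toReal := by
      have h := hq₁ (fun _ => 1) continuous_const (fun _ _ _ => rfl)
      rw [setIntegral_const, setIntegral_const] at h
      simpa [Measure.real] using h
    refine ⟨K', hc', hK', ?_, ?_, ?_, ?_⟩
    · intro φ h1 h2
      rw [hφ φ h1 (fun x y hxy => h2 x y fun i hi =>
        hxy i fun h => hi (by rw [h]; exact Finset.mem_insert_self b S))]
      exact hq₁ φ h1 fun x y hxy => h2 x y fun i hi =>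
        hxy i fun h => hi (Finset.mem_insert_of_mem h)
    · intro i hi
      rw [Finset.mem_insert] at hi
      by_cases hib : lab i = b
      · have h := hm' i hib
        have h2 := hq₁ (fun x => x i ^ 2) (by fun_prop)
          (fun x y hxy => by simp only [hxy i (by rw [hib]; exact hb)])
        rw [hv₁, h2] at h
        rw [hib]
        exact h
      · have hiS : lab i ∈ S := hi.resolve_left hib
        have h := hφ (fun x => |x i|) (by fun_prop) (fun x y hxy => by simp only [hxy i hib])
        rw [h]
        exact hm₁ i hiS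
    · intro i hi hi0
      rw [Finset.mem_insert, not_or] at hi
      exact hr' (a i) (fun j hj => hB.zero j i (by rw [hj]; exact fun h => hi.1 h.symm))
        (hr₁ i hi.2 hi0)
    · intro i hi
      rw [Finset.mem_insert] at hi
      by_cases hib : lab i = b
      · exact hu' i hib
      · have hiS : lab i ∈ S := hi.resolve_left hib
        refine hr' (Pi.single i 1) (fun j hj => ?_) (hu₁ i hiS)
        have : j ≠ i := fun h => hib (by rw [← h]; exact hj)
        rw [Pi.single_eq_of_ne this]

open Classical in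
/-- the step for one block -/
theorem stp {n : ℕ} {β : Type} {a : Fin n → Fin n → ℝ} {lab : Fin n → β} (hB : Blk a lab) (b : β)
    (hb : ∃ i, lab i = b) :
    C2h700.Stp lab a (E2.fm n (Finset.univ.filter fun i => lab i = b).card) b := by
  obtain ⟨m, p, e, hm, -, ⟨F, hF, hFm⟩, h1, h2⟩ := C2h700.exists_enum lab hb
  have hF' : (Finset.univ.filter fun i => lab i = b) = F := by
    ext i
    simp [hF i]
  rw [hF', hFm]
  exact C2h700.stp_of e h1 h2 fun K hc hK hR =>
    B2h.sym_step_D hm e hc hK le_rfl
      (fun z i => C1H.fib_bd (H171.both m hm).1 hB b e h1 h2 hc hK hR z i)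

/-- bodies which are symmetric in some coordinates -/
theorem sym_of {n : ℕ} {T : Finset (Fin n)} {K : Set (Fin n → ℝ)}
    (h : ∀ i ∈ T, ∀ x ∈ K, rf (Pi.single i 1) x ∈ K) :
    ∀ x ∈ K, ∀ y : Fin n → ℝ, (∀ i, i ∉ T → y i = x i) → (∀ i ∈ T, |y i| = |x i|) → y ∈ K := by
  classical
  intro x hx y h0 hy
  have key : ∀ S : Finset (Fin n), S ⊆ T → (fun i => if i ∈ S then y i else x i) ∈ K := by
    intro S
    induction S using Finset.induction_on with
    | empty => intro _; simpa using hx
    | @insert j S hj ih =>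
      intro hS
      have hjT : j ∈ T := hS (Finset.mem_insert_self j S)
      have ih' := ih fun i hi => hS (Finset.mem_insert_of_mem hi)
      rcases abs_eq_abs.1 (hy j hjT) with h1 | h1
      · have e : (fun i => if i ∈ insert j S then y i else x i) =
            fun i => if i ∈ S then y i else x i := by
          funext i
          by_cases hij : i = j
          · subst hij
            simp [hj, h1]
          · simp [Finset.mem_insert, hij]
        rw [e]
        exact ih'
      · have h2 := h j hjT _ ih'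
        rw [C2h700.rf_single] at h2
        have e : (fun i => if i ∈ insert j S then y i else x i) =
            Function.update (fun i => if i ∈ S then y i else x i) j
              (-(fun i => if i ∈ S then y i else x i) j) := by
          funext i
          by_cases hij : i = j
          · subst hij
            simp [hj, h1]
          · simp [Finset.mem_insert, hij]
        rw [e]
        exact h2
  have h1 := key T (Finset.Subset.refl T)
  have e : (fun i => if i ∈ T then y i else x i) = y := by
    funext i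
    by_cases hi : i ∈ T
    · simp [hi]
    · simp [hi, h0 i hi]
  rwa [e] at h1

/-- the moments of a body with reflections in the blocks `S₀`, in adapted coordinates -/
theorem mom {n : ℕ} {β : Type} {a : Fin n → Fin n → ℝ} {lab : Fin n → β} (hB : Blk a lab)
    {S₀ : Finset β} {K : Set (Fin n → ℝ)} (hK : IsCompact K)
    (hR : ∀ i, lab i ∈ S₀ → ∀ x ∈ K, rf (a i) x ∈ K) :
    (∀ i, lab i ∈ S₀ → ∫ x in K, x i = 0) ∧
      ∀ i, lab i ∈ S₀ → ∀ j, i ≠ j → ∫ x in K, x i * x j = 0 := by
  classical
  have hcont : ∀ u : Fin n → ℝ, Continuous fun x : Fin n → ℝ => u ⬝ᵥ x := by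
    intro u
    unfold dotProduct
    fun_prop
  have hint1 : ∀ u : Fin n → ℝ, IntegrableOn (fun x => u ⬝ᵥ x) K := fun u =>
    (hcont u).continuousOn.integrableOn_compact hK
  have hint2 : ∀ u v : Fin n → ℝ, IntegrableOn (fun x => (u ⬝ᵥ x) * (v ⬝ᵥ x)) K := fun u v =>
    ((hcont u).mul (hcont v)).continuousOn.integrableOn_compact hK
  have hne : ∀ i, a i ≠ 0 := fun i => hB.li.ne_zero i
  have hM : ∀ i, lab i ∈ S₀ → (∫ x in K, a i ⬝ᵥ x) = 0 ∧ ∃ l : ℝ, ∀ v : Fin n → ℝ,
      ∫ x in K, (a i ⬝ᵥ x) * (v ⬝ᵥ x) = l * (a i ⬝ᵥ v) := fun i hi =>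
    A2a165.mom_rf (hne i) hK (hR i hi)
  have hM2 : ∀ i, ∃ l : ℝ, lab i ∈ S₀ → ∀ v : Fin n → ℝ,
      ∫ x in K, (a i ⬝ᵥ x) * (v ⬝ᵥ x) = l * (a i ⬝ᵥ v) := by
    intro i
    by_cases hi : lab i ∈ S₀
    · obtain ⟨l, hl⟩ := (hM i hi).2
      exact ⟨l, fun _ => hl⟩
    · exact ⟨0, fun h => absurd h hi⟩
  choose l hl using hM2
  have hspan : Submodule.span ℝ (Set.range a) = ⊤ :=
    hB.li.span_eq_top_of_card_eq_finrank' (by simp)
  -- vectors in different blocks are orthogonal
  have hedge : ∀ i j, a i ⬝ᵥ a j ≠ 0 → lab i = lab j := by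
    intro i j hij
    by_contra hne
    refine hij ?_
    unfold dotProduct
    refine Finset.sum_eq_zero fun k _ => ?_
    by_cases hk : lab k = lab i
    · rw [hB.zero k j (by rw [hk]; exact hne), mul_zero]
    · rw [hB.zero k i hk, zero_mul]
  have hlk : ∀ i j, lab i ∈ S₀ → Lk a i j → lab j = lab i ∧ l i = l j := by
    intro i j hi h
    induction h with
    | refl => exact ⟨rfl, rfl⟩
    | @tail x y _ h2 ih =>
      obtain ⟨h3, h4⟩ := ih
      have h5 := hedge x y h2
      refine ⟨by rw [← h5, h3], h4.trans ?_⟩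
      have hx : lab x ∈ S₀ := by rw [h3]; exact hi
      have hy : lab y ∈ S₀ := by rw [← h5]; exact hx
      have e1 := hl x hx (a y)
      have e2 := hl y hy (a x)
      have e3 : ∫ z in K, (a x ⬝ᵥ z) * (a y ⬝ᵥ z) = ∫ z in K, (a y ⬝ᵥ z) * (a x ⬝ᵥ z) :=
        integral_congr_ae (Filter.Eventually.of_forall fun z => mul_comm _ _)
      rw [e1, e2, dotProduct_comm (a y) (a x)] at e3
      exact mul_right_cancel₀ h2 e3
  have hlab : ∀ i j, lab i ∈ S₀ → lab i = lab j → l i = l j := fun i j hi h =>
    (hlk i j hi (hB.conn i j h)).2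
  set pT : (Fin n → ℝ) → (Fin n → ℝ) := fun u i => if lab i ∈ S₀ then u i else 0 with hpT
  have pT_add : ∀ y z, pT (y + z) = pT y + pT z := by
    intro y z
    funext i
    simp only [hpT, Pi.add_apply]
    split_ifs <;> simp
  have pT_smul : ∀ (c : ℝ) y, pT (c • y) = c • pT y := by
    intro c y
    funext i
    simp only [hpT, Pi.smul_apply, smul_eq_mul]
    split_ifs <;> simp
  have pT_a : ∀ j, lab j ∈ S₀ → pT (a j) = a j := by
    intro j hj
    funext i
    simp only [hpT]
    split_ifs with h
    · rfl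
    · exact (hB.zero i j fun h' => h (by rw [h']; exact hj)).symm
  have pT_a0 : ∀ j, lab j ∉ S₀ → pT (a j) = 0 := by
    intro j hj
    funext i
    simp only [hpT, Pi.zero_apply]
    split_ifs with h
    · exact hB.zero i j fun h' => hj (by rw [← h']; exact h)
    · rfl
  -- first moments
  have hfirst : ∀ u : Fin n → ℝ, (∫ x in K, pT u ⬝ᵥ x) = 0 := by
    intro u
    have hu : u ∈ Submodule.span ℝ (Set.range a) := by rw [hspan]; trivial
    induction hu using Submodule.span_induction with
    | mem y hy =>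
      obtain ⟨i, rfl⟩ := hy
      by_cases hi : lab i ∈ S₀
      · rw [pT_a i hi]
        exact (hM i hi).1
      · rw [pT_a0 i hi]
        simp
    | zero =>
      have : pT 0 = 0 := by funext i; simp [hpT]
      rw [this]
      simp
    | add y z _ _ hy hz =>
      rw [pT_add]
      simp only [add_dotProduct]
      rw [integral_add (hint1 _) (hint1 _), hy, hz, add_zero]
    | smul c y _ hy =>
      rw [pT_smul]
      simp only [smul_dotProduct, smul_eq_mul]
      rw [integral_const_mul, hy, mul_zero]
  have hsecond : ∀ u v : Fin n → ℝ,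
      (∫ x in K, (pT u ⬝ᵥ x) * (v ⬝ᵥ x)) = ∑ i, l i * (pT u i * v i) := by
    intro u v
    have hu : u ∈ Submodule.span ℝ (Set.range a) := by rw [hspan]; trivial
    induction hu using Submodule.span_induction with
    | mem y hy =>
      obtain ⟨j, rfl⟩ := hy
      by_cases hj : lab j ∈ S₀
      · rw [pT_a j hj, hl j hj v, dotProduct, Finset.mul_sum]
        refine Finset.sum_congr rfl fun i _ => ?_
        by_cases h : lab i = lab j
        · rw [hlab i j (by rw [h]; exact hj) h]
        · rw [hB.zero i j h]; ring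
      · rw [pT_a0 j hj]
        simp
    | zero =>
      have : pT 0 = 0 := by funext i; simp [hpT]
      rw [this]
      simp
    | add y z _ _ hy hz =>
      rw [pT_add]
      simp only [add_dotProduct, add_mul]
      rw [integral_add (hint2 _ v) (hint2 _ v), hy, hz, ← Finset.sum_add_distrib]
      refine Finset.sum_congr rfl fun i _ => ?_
      simp only [Pi.add_apply]
      ring
    | smul c y _ hy =>
      rw [pT_smul]
      simp only [smul_dotProduct, smul_eq_mul, mul_assoc]
      rw [integral_const_mul, hy, Finset.mul_sum]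
      refine Finset.sum_congr rfl fun i _ => ?_
      simp only [Pi.smul_apply, smul_eq_mul]
      ring
  have pT_single : ∀ i, lab i ∈ S₀ → pT (Pi.single i 1) = Pi.single i 1 := by
    intro i hi
    funext j
    simp only [hpT]
    split_ifs with h
    · rfl
    · have : j ≠ i := fun h' => h (by rw [h']; exact hi)
      rw [Pi.single_eq_of_ne this]
  refine ⟨fun i hi => ?_, fun i hi j hij => ?_⟩
  · have h := hfirst (Pi.single i 1)
    rw [pT_single i hi] at h
    simpa only [single_dotProduct, one_mul] using h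
  · have h := hsecond (Pi.single i 1) (Pi.single j 1)
    rw [pT_single i hi] at h
    simp only [single_dotProduct, one_mul] at h
    rw [h]
    refine Finset.sum_eq_zero fun b _ => ?_
    by_cases hb : b = i
    · subst hb
      simp [Pi.single_eq_of_ne hij]
    · simp [Pi.single_eq_of_ne hb]

end Vale.Agent.P254.H4
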