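import Vale.Agent.P254.MathlibUsed
import Mathlib.Analysis.Matrix.Spectrum
import Mathlib.Analysis.Matrix.PosDef

/-!
P254: an orthogonal matrix whose first column is an eigenvector for the smallest eigenvalue.
-/

open Matrix

namespace Vale.Agent.P254.H4

lemma exists_orth {m : ℕ} {M : Matrix (Fin (m + 1)) (Fin (m + 1)) ℝ} (hM : M.PosDef) :
    ∃ O : Matrix (Fin (m + 1)) (Fin (m + 1)) ℝ, Oᵀ * O = 1 ∧
      0 < (Oᵀ * M * O) 0 0 ∧ (Oᵀ * M * O) 0 0 ^ (m + 1) ≤ M.det := by
  have hH := hM.isHermitian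
  obtain ⟨i0, hi0⟩ := Finite.exists_min hH.eigenvalues
  set U : Matrix (Fin (m + 1)) (Fin (m + 1)) ℝ := 
    (hH.eigenvectorUnitary : Matrix (Fin (m + 1)) (Fin (m + 1)) ℝ) with hU
  have hUU : Uᵀ * U = 1 := by
    have := Unitary.coe_star_mul_self hH.eigenvectorUnitary
    simpa [star_eq_conjTranspose, conjTranspose_eq_transpose_of_trivial] using this
  have hD : Uᵀ * M * U = diagonal hH.eigenvalues := by
    have := hH.conjStarAlgAut_star_eigenvectorUnitary
    rw [Unitary.conjStarAlgAut_star_apply] at this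
    simpa [star_eq_conjTranspose, conjTranspose_eq_transpose_of_trivial, hU, Function.comp_def]
      using this
  set σ := Equiv.swap (0 : Fin (m + 1)) i0 with hσ
  have hsub : (U.submatrix id σ)ᵀ * M * (U.submatrix id σ) = (Uᵀ * M * U).submatrix σ σ := by
    rw [transpose_submatrix]
    ext i j
    simp [Matrix.mul_apply]
  have h00 : ((U.submatrix id σ)ᵀ * M * (U.submatrix id σ)) 0 0 = hH.eigenvalues i0 := by
    rw [hsub, hD]
    simp [hσ]
  refine ⟨U.submatrix id σ, ?_, ?_, ?_⟩
  · have : (U.submatrix id σ)ᵀ * (U.submatrix id σ) = (Uᵀ * U).submatrix σ σ := by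
      ext i j
      simp [Matrix.mul_apply]
    rw [this, hUU]
    simp
  · rw [h00]
    exact hM.eigenvalues_pos i0
  · rw [h00, hH.det_eq_prod_eigenvalues]
    have h1 : ∏ i, ((hH.eigenvalues i : ℝ) : ℝ) ≥ ∏ _i : Fin (m + 1), hH.eigenvalues i0 :=
      Finset.prod_le_prod (fun _ _ => (hM.eigenvalues_pos i0).le) (fun i _ => hi0 i)
    simpa using h1

/-- A matrix with `|det| = 1` which makes the positive definite matrix `M` a multiple of `1`. -/
lemma exists_iso {m : ℕ} {M : Matrix (Fin (m + 1)) (Fin (m + 1)) ℝ} (hM : M.PosDef) :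
    ∃ A : Matrix (Fin (m + 1)) (Fin (m + 1)) ℝ, |A.det| = 1 ∧ ∃ s : ℝ, 0 < s ∧
      A * M * Aᵀ = s • (1 : Matrix (Fin (m + 1)) (Fin (m + 1)) ℝ) ∧ s ^ (m + 1) = M.det := by
  have hH := hM.isHermitian
  set U : Matrix (Fin (m + 1)) (Fin (m + 1)) ℝ :=
    (hH.eigenvectorUnitary : Matrix (Fin (m + 1)) (Fin (m + 1)) ℝ) with hU
  have hUU : Uᵀ * U = 1 := by
    have := Unitary.coe_star_mul_self hH.eigenvectorUnitary
    simpa [star_eq_conjTranspose, conjTranspose_eq_transpose_of_trivial] using this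
  have hD : Uᵀ * M * U = diagonal hH.eigenvalues := by
    have := hH.conjStarAlgAut_star_eigenvectorUnitary
    rw [Unitary.conjStarAlgAut_star_apply] at this
    simpa [star_eq_conjTranspose, conjTranspose_eq_transpose_of_trivial, hU, Function.comp_def]
      using this
  have hpos := hM.eigenvalues_pos
  have hdetM : M.det = ∏ i, hH.eigenvalues i := by simpa using hH.det_eq_prod_eigenvalues
  have hd0 : 0 < M.det := hM.det_pos
  set s : ℝ := M.det ^ (1 / ((m : ℝ) + 1)) with hs
  have hs0 : 0 < s := by positivity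
  have hm1 : ((m : ℝ) + 1) ≠ 0 := by positivity
  have hsn : s ^ (m + 1) = M.det := by
    rw [hs, ← Real.rpow_natCast, ← Real.rpow_mul hd0.le]
    push_cast
    rw [one_div_mul_cancel hm1, Real.rpow_one]
  set d : Fin (m + 1) → ℝ := fun i => Real.sqrt (s / hH.eigenvalues i) with hd
  have hdd : ∀ i, d i * hH.eigenvalues i * d i = s := by
    intro i
    have h1 : d i * d i = s / hH.eigenvalues i :=
      Real.mul_self_sqrt (div_nonneg hs0.le (hpos i).le)
    have h2 : d i * hH.eigenvalues i * d i = d i * d i * hH.eigenvalues i := by ring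
    rw [h2, h1, div_mul_cancel₀ _ (hpos i).ne']
  have hconj : (diagonal d * Uᵀ) * M * (diagonal d * Uᵀ)ᵀ =
      s • (1 : Matrix (Fin (m + 1)) (Fin (m + 1)) ℝ) := by
    have : (diagonal d * Uᵀ) * M * (diagonal d * Uᵀ)ᵀ = diagonal d * (Uᵀ * M * U) * diagonal d := by
      rw [transpose_mul, transpose_transpose, diagonal_transpose]
      simp only [Matrix.mul_assoc]
    rw [this, hD, diagonal_mul_diagonal, diagonal_mul_diagonal]
    simp_rw [hdd]
    ext i j
    simp [diagonal_apply, Matrix.one_apply]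
  refine ⟨diagonal d * Uᵀ, ?_, s, hs0, hconj, hsn⟩
  have h1 := congrArg Matrix.det hconj
  rw [det_mul, det_mul, det_transpose, det_smul, det_one, mul_one, Fintype.card_fin, hsn] at h1
  have h2 : (diagonal d * Uᵀ).det ^ 2 = 1 := by
    have : (diagonal d * Uᵀ).det ^ 2 * M.det = 1 * M.det := by linarith [h1, sq (diagonal d * Uᵀ).det]
    exact mul_right_cancel₀ hd0.ne' this
  have h3 : |(diagonal d * Uᵀ).det| ^ 2 = 1 := by rw [sq_abs]; exact h2
  have h4 : 0 ≤ |(diagonal d * Uᵀ).det| := abs_nonneg _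
  nlinarith

end Vale.Agent.P254.H4
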