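import Vale.Agent.P254.H242.Final

/-!
P254: two exact cases, in the notation of `Vale.Agent.P254.Defs`.
-/

open MeasureTheory Set Matrix

namespace Vale.Agent.P254.H4

theorem rot_lt {n : ℕ} {K S : Set (Fin n → ℝ)} {T : Finset (Fin n)} (hn : 1 ≤ n)
    (hK : IsConvexBody K) (hS : IsSimplex S)
    (hR : ∀ x ∈ K, ∀ y : Fin n → ℝ,
      (∀ i, i ∉ T → y i = x i) → ∑ i ∈ T, y i ^ 2 = ∑ i ∈ T, x i ^ 2 → y ∈ K)
    (hT : n + 13 ≤ 3 * T.card) : isoConst K < isoConst S := by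
  have h := H242.part_rot (T := fun _ : Fin 1 => T) hn hK hS
    (fun i j hij => absurd (Subsingleton.elim i j) hij) (fun _ => hR)
  rw [CC.iso_eq, CC.iso_eq] at h
  exact h.2 (Or.inl ⟨0, Or.inl hT⟩)

theorem prod_lt {q p : ℕ} {K : Set (Fin q → ℝ)} {U : Set (Fin p → ℝ)}
    {S : Set (Fin (q + p) → ℝ)} (hq : 1 ≤ q) (hp : 5 * q + 6 ≤ p) (hK : IsConvexBody K)
    (hU : IsConvexBody U) (hu : Unc.Uncond U) (hS : IsSimplex S) :
    isoConst {z : Fin (q + p) → ℝ | (fun i => z (Fin.castAdd p i)) ∈ K ∧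
      (fun j => z (Fin.natAdd q j)) ∈ U} < isoConst S := by
  have h := (H242.part_prod hq hp hK
    ⟨hU, fun x hx y h1 _ => hu x hx y fun i => h1 i (Finset.mem_univ i)⟩ hS).1
  rw [CC.iso_eq, CC.iso_eq] at h
  exact h

end Vale.Agent.P254.H4
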