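import Vale.Agent.P254.H4.Key
import Vale.Agent.P254.Bdl.B20

/-!
P254: the volume inequality with `q` free variables in `ℝ^q × [0,1]^(n+1)`.
-/

open MeasureTheory Set Filter Topology
open scoped NNReal

namespace Vale.Agent.P254.H4

open Unc FV1

variable {q n : ℕ} {L : Set ((Fin q → ℝ) × X (n + 1))}

theorem main_M (hL : CL L) (M : ℕ) {T : Fin q → ℝ}
    (hT : ∀ j, T j * ∫ x, mass L x = ∫ x : Fin q → ℝ, x j * mass L x)
    (hm : 0 < ∫ x, mass L x) :
    (∫ x : Fin q → ℝ, ∫ y : X n, HH L (x, y) ^ 2) *
      ∏ k : Fin n, (2 * ∫ x : Fin q → ℝ, ∫ y : X n, ((y k : unitInterval) : ℝ) * HH L (x, y)) ≤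
      (∫ x, mass L x) ^ (n + 1) * ∫ y : X n, max (sG L M (T, y)) 0 := by
  set m := ∫ x, mass L x with hmdef
  have hsG := (sG_lip hL M).continuous
  set A0 := ∫ x : Fin q → ℝ, ∫ y : X n, sG L M (x, y) * HH L (x, y) with hA0
  set A : Fin n → ℝ := fun k => ∫ x : Fin q → ℝ, ∫ y : X n,
    ((y k : unitInterval) : ℝ) * HH L (x, y) with hA
  have hA_nonneg : ∀ k, 0 ≤ A k := fun k => integral_nonneg fun x => integral_nonneg fun y =>
    mul_nonneg (y k).2.1 (HH_nonneg _)
  have hP0 : 0 ≤ ∏ k : Fin n, (2 * A k) :=
    Finset.prod_nonneg fun k _ => mul_nonneg (by norm_num) (hA_nonneg k)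
  have hI0 : 0 ≤ ∫ y : X n, max (sG L M (T, y)) 0 := integral_nonneg fun y => le_max_right _ _
  have hle : (∫ x : Fin q → ℝ, ∫ y : X n, HH L (x, y) ^ 2) ≤ A0 := by
    have h2 : Integrable fun x : Fin q → ℝ => ∫ y : X n, HH L (x, y) ^ 2 := by
      have h3 : Integrable (fun z : (Fin q → ℝ) × X n => HH L z ^ 2) := by
        refine (FH_int hL (F := fun _ => (1 : ℝ)) continuous_const).mono
          ((HH_meas hL).pow_const 2).aestronglyMeasurable (Eventually.of_forall fun z => ?_)
        rw [one_mul, Real.norm_eq_abs, Real.norm_eq_abs, abs_pow, abs_of_nonneg (HH_nonneg z)]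
        nlinarith [HH_nonneg (L := L) z, HH_le_one (L := L) z]
      exact h3.integral_prod_left
    refine integral_mono h2 (FH_int' hL hsG) fun x => ?_
    have hHx : Measurable fun y : X n => HH L (x, y) := (HH_meas hL).comp measurable_prodMk_left
    obtain ⟨B, hB⟩ := isCompact_univ.exists_bound_of_continuousOn
      (sec_lip hL M x).continuous.continuousOn
    refine integral_mono ?_ ?_ fun y => ?_
    · refine Integrable.of_bound (C := 1) (hHx.pow_const 2).aestronglyMeasurable
        (Eventually.of_forall fun y => ?_)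
      rw [Real.norm_eq_abs, abs_pow, abs_of_nonneg (HH_nonneg _)]
      exact pow_le_one₀ (HH_nonneg _) (HH_le_one _)
    · refine Integrable.of_bound (C := B)
        ((sec_lip hL M x).continuous.measurable.mul hHx).aestronglyMeasurable
        (Eventually.of_forall fun y => ?_)
      rw [norm_mul]
      have h2 : ‖HH L (x, y)‖ ≤ 1 := by
        rw [Real.norm_eq_abs, abs_of_nonneg (HH_nonneg _)]
        exact HH_le_one _
      calc ‖sec L M x y‖ * ‖HH L (x, y)‖ ≤ ‖sec L M x y‖ * 1 :=
            mul_le_mul_of_nonneg_left h2 (norm_nonneg _)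
        _ ≤ B := by rw [mul_one]; exact hB y (mem_univ y)
    · show HH L (x, y) ^ 2 ≤ sG L M (x, y) * HH L (x, y)
      rcases (HH_nonneg (L := L) (x, y)).eq_or_lt with hx | hx
      · rw [← hx]; simp
      · rw [pow_two]
        refine mul_le_mul_of_nonneg_right ?_ hx.le
        rcases le_max_iff.1 (Hf_le_sG hL M x y) with h | h
        · exact h
        · exact absurd hx (not_lt.2 h)
  refine (mul_le_mul_of_nonneg_right hle hP0).trans ?_
  rcases le_or_gt A0 0 with hg | hg
  · exact (mul_nonpos_of_nonpos_of_nonneg hg hP0).trans (by positivity)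
  · set v : Option (Fin n) → ℝ := fun i => match i with
      | none => A0 / m
      | some k => A k / m with hv
    have hv0 : ∀ i, 0 ≤ v i := by
      intro i
      cases i with
      | none => exact div_nonneg hg.le hm.le
      | some k => exact div_nonneg (hA_nonneg k) hm.le
    have hrel : Rel (sec L M T) (sec L M T) (sec L M T) := by
      have h := sec_rel hL M T T
      have e : (1 / 2 : ℝ) • (T + T) = T := by module
      rw [e] at h
      exact h
    have hsep := sep (cx_all n) (sec_lip hL M T) hrel v hv0 (by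
        intro u hu
        have h1 := key hL M u (hu none) hT
        rw [Fintype.sum_option]
        have h2 : u none * v none + ∑ k : Fin n, u (some k) * v (some k) =
            (u none * A0 + ∑ k : Fin n, u (some k) * A k) / m := by
          rw [add_div, Finset.sum_div]
          congr 1
          · simp only [hv]
            ring
          · refine Finset.sum_congr rfl fun k _ => ?_
            simp only [hv]
            ring
        rw [h2, div_le_iff₀ hm]
        exact h1)
    rw [Fintype.prod_option] at hsep
    simp only [hv] at hsep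
    rw [Finset.prod_div_distrib, Finset.prod_const, Finset.card_univ, Fintype.card_fin,
      div_mul_div_comm, div_le_div_iff₀ (by positivity) (by positivity)] at hsep
    rw [Finset.prod_mul_distrib, Finset.prod_const, Finset.card_univ, Fintype.card_fin]
    calc A0 * (2 ^ n * ∏ k : Fin n, A k)
        = A0 * (∏ k : Fin n, A k) * 2 ^ n := by ring
      _ ≤ (∫ y : X n, max (sec L M T y) 0) * (m * m ^ n) := hsep
      _ = m ^ (n + 1) * ∫ y : X n, max (sG L M (T, y)) 0 := by
          simp only [sec]
          ring

/-- The volume inequality with `q` free variables. -/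
theorem func_q (hL : CL L) {T : Fin q → ℝ}
    (hT : ∀ j, T j * ∫ x, (volume (fb L x)).toReal =
      ∫ x : Fin q → ℝ, x j * (volume (fb L x)).toReal) :
    ∏ k : Fin (n + 1), (2 * ∫ x : Fin q → ℝ, ∫ w in fb L x, ((w k : unitInterval) : ℝ)) ≤
      (∫ x, (volume (fb L x)).toReal) ^ (n + 1) * (volume (fb L T)).toReal := by
  have em : ∀ x, mass L x = (volume (fb L x)).toReal := fun x =>
    (fub_vol (fb L x) (fb_closed hL x)).symm
  have e0 : ∀ x : Fin q → ℝ, 2 * ∫ w in fb L x, ((w 0 : unitInterval) : ℝ) =
      ∫ y : X n, HH L (x, y) ^ 2 := fun x => fub_zero _ (fb_closed hL x) (fb_low hL x)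
  have ek : ∀ (k : Fin n) (x : Fin q → ℝ), ∫ w in fb L x, ((w k.succ : unitInterval) : ℝ) =
      ∫ y : X n, ((y k : unitInterval) : ℝ) * HH L (x, y) := fun k x =>
    fub_succ _ (fb_closed hL x) k
  rw [Fin.prod_univ_succ]
  simp_rw [ek]
  rw [← integral_const_mul]
  simp_rw [e0]
  simp_rw [← em] at hT ⊢
  have hmi : 0 ≤ ∫ x, mass L x := integral_nonneg mass_nonneg
  rcases hmi.eq_or_lt with hz | hm
  · have hint : Integrable (mass L) := by
      have := mass_int hL (φ := fun _ => 1) continuous_const
      simpa using this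
    have h0 : mass L =ᵐ[volume] 0 := (integral_eq_zero_iff_of_nonneg mass_nonneg hint).1 hz.symm
    have h1 : ∫ x : Fin q → ℝ, ∫ y : X n, HH L (x, y) ^ 2 = 0 := by
      have : (fun x : Fin q → ℝ => ∫ y : X n, HH L (x, y) ^ 2) =ᵐ[volume] fun _ => (0 : ℝ) := by
        filter_upwards [h0] with x hx
        have hHx : Measurable fun y : X n => HH L (x, y) :=
          (HH_meas hL).comp measurable_prodMk_left
        have hi : Integrable fun y : X n => HH L (x, y) :=
          Integrable.of_bound (C := 1) hHx.aestronglyMeasurable (Eventually.of_forall fun y => by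
            rw [Real.norm_eq_abs, abs_of_nonneg (HH_nonneg _)]; exact HH_le_one _)
        have h2 : (fun y : X n => HH L (x, y)) =ᵐ[volume] 0 :=
          (integral_eq_zero_iff_of_nonneg (fun y => HH_nonneg _) hi).1 hx
        have h3 : (fun y : X n => HH L (x, y) ^ 2) =ᵐ[volume] fun _ => (0 : ℝ) := by
          filter_upwards [h2] with y hy
          rw [hy]
          simp
        rw [integral_congr_ae h3]
        simp
      rw [integral_congr_ae this]
      simp
    rw [h1, zero_mul]
    exact mul_nonneg (pow_nonneg hmi _) (mass_nonneg _)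
  · have hlim : Tendsto (fun M => ∫ y : X n, max (sG L M (T, y)) 0) atTop (𝓝 (mass L T)) := by
      refine CubeH.lim1 (fun M => ?_) (fun M y => ?_) (fun y => HH_tendsto hL (T, y))
      · exact (sec_lip hL M T).continuous.max continuous_const
      · rw [abs_of_nonneg (le_max_right _ _)]
        exact max_le (sG_le_one hL M _) zero_le_one
    exact ge_of_tendsto' (hlim.const_mul _) fun M => main_M hL M hT hm

end Vale.Agent.P254.H4
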