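import Vale.Agent.P254.Bdl.B5

/-!
P254: Jensen's inequality for continuous midpoint concave functions on `ℝ^q`.
-/

open MeasureTheory Set
open scoped NNReal ENNReal

namespace Vale.Agent.P254.H4

variable {q : ℕ}

theorem concaveOn_univ_of_mid {φ : (Fin q → ℝ) → ℝ} (hφ : Continuous φ)
    (hm : ∀ s t, (φ s + φ t) / 2 ≤ φ ((1 / 2 : ℝ) • (s + t))) : ConcaveOn ℝ univ φ := by
  refine ⟨convex_univ, ?_⟩
  intro x _ y _ a b ha hb hab
  set g : ℝ → ℝ := fun u => φ (x + u • (y - x)) with hg
  have hgc : Continuous g := by fun_prop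
  have h1 : ConcaveOn ℝ (Icc 0 1) g := by
    refine FV1.Jen.concaveOn_of_mid hgc.continuousOn ?_
    intro s _ t _
    have h := hm (x + s • (y - x)) (x + t • (y - x))
    have e : (1 / 2 : ℝ) • (x + s • (y - x) + (x + t • (y - x))) =
        x + ((s + t) / 2) • (y - x) := by
      module
    rw [e] at h
    exact h
  have h2 := h1.2 (left_mem_Icc.mpr zero_le_one) (right_mem_Icc.mpr zero_le_one) ha hb hab
  have e1 : g 0 = φ x := by simp [hg]
  have e2 : g 1 = φ y := by simp [hg]
  have e3 : g (a • 0 + b • 1) = φ (a • x + b • y) := by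
    simp only [hg, smul_eq_mul, mul_zero, mul_one, zero_add]
    congr 1
    have : a = 1 - b := by linarith
    rw [this]
    module
  rw [e1, e2, e3] at h2
  exact h2

theorem jensenE {φ p : (Fin q → ℝ) → ℝ} (hφ : Continuous φ)
    (hm : ∀ s t, (φ s + φ t) / 2 ≤ φ ((1 / 2 : ℝ) • (s + t)))
    (hpm : Measurable p) (hp0 : ∀ x, 0 ≤ p x) (hpi : Integrable p)
    (hpx : ∀ j, Integrable fun x : Fin q → ℝ => x j * p x)
    (hφp : Integrable fun x => φ x * p x) {T : Fin q → ℝ}
    (hT : ∀ j, T j * ∫ x, p x = ∫ x : Fin q → ℝ, x j * p x) :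
    ∫ x, φ x * p x ≤ φ T * ∫ x, p x := by
  have hI0 : 0 ≤ ∫ t, p t := integral_nonneg hp0
  rcases hI0.eq_or_lt with hz | hpos
  · have h0 : p =ᵐ[volume] 0 := (integral_eq_zero_iff_of_nonneg hp0 hpi).1 hz.symm
    have h1 : ∫ t, φ t * p t = 0 := by
      have : (fun t => φ t * p t) =ᵐ[volume] fun _ => (0:ℝ) := by
        filter_upwards [h0] with t ht
        simp [ht]
      rw [integral_congr_ae this]
      simp
    rw [h1, ← hz]
    simp
  · have hconc := concaveOn_univ_of_mid hφ hm
    set w : (Fin q → ℝ) → ℝ≥0 := fun t => Real.toNNReal (p t) with hw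
    have hwm : Measurable w := hpm.real_toNNReal
    set μ : Measure (Fin q → ℝ) := volume.withDensity (fun t => (w t : ℝ≥0∞)) with hμ
    have hint : ∀ f : (Fin q → ℝ) → ℝ, ∫ t, f t ∂μ = ∫ t, f t * p t := by
      intro f
      rw [hμ, integral_withDensity_eq_integral_smul hwm]
      refine integral_congr_ae (Filter.Eventually.of_forall fun t => ?_)
      simp only [hw, NNReal.smul_def, smul_eq_mul, Real.coe_toNNReal _ (hp0 t)]
      ring
    have hintg : ∀ f : (Fin q → ℝ) → ℝ, Integrable (fun t => f t * p t) → Integrable f μ := by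
      intro f hf
      rw [hμ, integrable_withDensity_iff_integrable_smul hwm]
      refine hf.congr (Filter.Eventually.of_forall fun t => ?_)
      simp only [hw, NNReal.smul_def, smul_eq_mul, Real.coe_toNNReal _ (hp0 t)]
      ring
    have hfin : IsFiniteMeasure μ := by
      refine isFiniteMeasure_withDensity ?_
      have h1 : ∫⁻ t, (w t : ℝ≥0∞) = ∫⁻ t, ENNReal.ofReal (p t) := rfl
      rw [h1]
      exact (hpi.lintegral_lt_top).ne
    have huniv : μ.real univ = ∫ t, p t := by
      have h1 := hint (fun _ => (1:ℝ))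
      simp only [integral_const, smul_eq_mul, mul_one, one_mul] at h1
      exact h1
    have hne : NeZero μ := by
      refine ⟨fun h => ?_⟩
      rw [h] at huniv
      simp at huniv
      linarith
    have hid : Integrable (fun x : Fin q → ℝ => x) μ := by
      exact Integrable.of_eval fun j => hintg _ (hpx j)
    have hJ := hconc.le_map_average (μ := μ) (f := fun t : Fin q → ℝ => t)
      hφ.continuousOn isClosed_univ (Filter.Eventually.of_forall fun t => mem_univ _) hid
      (hintg _ hφp)
    rw [average_eq, average_eq, huniv, hint] at hJ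
    have e : (∫ t, p t)⁻¹ • ∫ x : Fin q → ℝ, x ∂μ = T := by
      funext j
      have h1 : (∫ x : Fin q → ℝ, x ∂μ) j = ∫ x : Fin q → ℝ, x j ∂μ := by
        exact eval_integral (fun i => hintg _ (hpx i)) j
      rw [Pi.smul_apply, h1, hint, ← hT, smul_eq_mul]
      field_simp
    rw [e, smul_eq_mul, inv_mul_le_iff₀ hpos] at hJ
    linarith [mul_comm (φ T) (∫ t, p t)]

end Vale.Agent.P254.H4
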