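import Vale.Agent.P254.H4.SupConv
import Vale.Agent.P254.H4.Jensen

/-!
P254: the volume inequality with `q` free variables, in `ℝ^q × [0,1]^(n+1)`.
-/

open MeasureTheory Set Filter Topology
open scoped NNReal

namespace Vale.Agent.P254.H4

open Unc FV1

variable {q n : ℕ}

/-- antitone Lipschitz weights -/
theorem Sf_weight {f ρ : X n → ℝ} (hf : Continuous f) (hanti : Antitone ρ) (h0 : ∀ x, 0 ≤ ρ x)
    (hlip : ∃ K, LipschitzWith K ρ) : ∫ x, f x * ρ x ≤ Sf f * ∫ x, ρ x := by
  obtain ⟨K, hlip⟩ := hlip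
  have hp0 : 0 ≤ ∫ x, ρ x := integral_nonneg h0
  rcases hp0.eq_or_lt with h | h
  · have h1 : ρ =ᵐ[volume] 0 :=
      (integral_eq_zero_iff_of_nonneg h0 (d2_integrable_cont hlip.continuous)).1 h.symm
    have h2 : ∫ x, f x * ρ x = 0 := by
      rw [← integral_zero (X n) ℝ]
      refine integral_congr_ae ?_
      filter_upwards [h1] with x hx
      rw [hx]
      simp
    rw [h2, ← h, mul_zero]
  · set p : ℝ := ∫ x, ρ x with hp
    have hd : Dens n (fun x => ρ x / p) := by
      refine ⟨fun x y hxy => div_le_div_of_nonneg_right (hanti hxy) hp0,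
        fun x => div_nonneg (h0 x) hp0, ?_, ?_⟩
      · refine ⟨Real.toNNReal (1 / p) * K, LipschitzWith.of_dist_le_mul fun x y => ?_⟩
        have h3 := hlip.dist_le_mul x y
        rw [Real.dist_eq] at h3 ⊢
        have e : ρ x / p - ρ y / p = (1 / p) * (ρ x - ρ y) := by ring
        have hpp : 0 ≤ 1 / p := by positivity
        rw [e, abs_mul, NNReal.coe_mul, Real.coe_toNNReal _ hpp, mul_assoc, abs_of_nonneg hpp]
        exact mul_le_mul_of_nonneg_left h3 hpp
      · rw [integral_div, ← hp, div_self h.ne']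
    have h4 := le_Sf hf hd
    have h5 : ∫ x, f x * (ρ x / p) = (∫ x, f x * ρ x) / p := by
      rw [← integral_div]
      refine integral_congr_ae (Filter.Eventually.of_forall fun x => ?_)
      simp only
      ring
    rw [h5, div_le_iff₀ h] at h4
    exact h4

variable {L : Set ((Fin q → ℝ) × X (n + 1))}

/-- The height function. -/
noncomputable def HH (L : Set ((Fin q → ℝ) × X (n + 1))) (z : (Fin q → ℝ) × X n) : ℝ :=
  Hf (fb L z.1) z.2

theorem HH_nonneg (z : (Fin q → ℝ) × X n) : 0 ≤ HH L z := scHf_nonneg _ _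

theorem HH_le_one (z : (Fin q → ℝ) × X n) : HH L z ≤ 1 := Hf_le_one _ _

theorem HH_zero {x : Fin q → ℝ} (hx : x ∉ Prod.fst '' L) (y : X n) : HH L (x, y) = 0 := by
  have h : fb L x = ∅ := by
    ext w
    simp only [mem_empty_iff_false, iff_false]
    intro hw
    exact hx ⟨(x, w), hw, rfl⟩
  simp [HH, Hf, h]

theorem HH_tendsto (hL : CL L) (z : (Fin q → ℝ) × X n) :
    Tendsto (fun N => max (sG L N z) 0) atTop (𝓝 (HH L z)) := sG_tendsto hL z.1 z.2

theorem HH_meas (hL : CL L) : Measurable (HH L) :=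
  measurable_of_tendsto_metrizable
    (f := fun N z => max (sG L N z) 0) (fun N => ((sG_lip hL N).continuous.max
      continuous_const).measurable) (tendsto_pi_nhds.2 (HH_tendsto hL))

theorem FH_int (hL : CL L) {F : (Fin q → ℝ) × X n → ℝ} (hF : Continuous F) :
    Integrable (fun z => F z * HH L z) := by
  have hC : IsCompact (Prod.fst '' L) := hL.comp.image continuous_fst
  have hCC : IsCompact ((Prod.fst '' L) ×ˢ (univ : Set (X n))) := hC.prod isCompact_univ
  obtain ⟨B, hB⟩ := hCC.exists_bound_of_continuousOn hF.continuousOn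
  have hm : Measurable fun z => F z * HH L z := hF.measurable.mul (HH_meas hL)
  have h1 : IntegrableOn (fun z => F z * HH L z) ((Prod.fst '' L) ×ˢ (univ : Set (X n))) := by
    refine Measure.integrableOn_of_bounded (M := B) hCC.measure_lt_top.ne hm.aestronglyMeasurable ?_
    refine (ae_restrict_iff' hCC.measurableSet).mpr (Eventually.of_forall fun z hz => ?_)
    rw [norm_mul]
    have h2 : ‖HH L z‖ ≤ 1 := by
      rw [Real.norm_eq_abs, abs_of_nonneg (HH_nonneg z)]
      exact HH_le_one z
    calc ‖F z‖ * ‖HH L z‖ ≤ ‖F z‖ * 1 := mul_le_mul_of_nonneg_left h2 (norm_nonneg _)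
      _ ≤ B := by rw [mul_one]; exact hB z hz
  rw [← integrableOn_iff_integrable_of_support_subset
    (s := (Prod.fst '' L) ×ˢ (univ : Set (X n)))]
  · exact h1
  · intro z hz
    refine ⟨?_, mem_univ _⟩
    by_contra hc
    have := HH_zero hc z.2
    simp only [Function.mem_support] at hz
    exact hz (by rw [show z = (z.1, z.2) from rfl, this, mul_zero])

theorem FH_int' (hL : CL L) {F : (Fin q → ℝ) × X n → ℝ} (hF : Continuous F) :
    Integrable (fun x => ∫ y, F (x, y) * HH L (x, y)) :=
  (FH_int hL hF).integral_prod_left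

theorem Sf_fibre (hL : CL L) (x : Fin q → ℝ) {f : X n → ℝ} (hf : Continuous f) :
    ∫ y, f y * HH L (x, y) ≤ Sf f * ∫ y, HH L (x, y) := by
  rcases (fb L x).eq_empty_or_nonempty with he | hne
  · have h : ∀ y : X n, HH L (x, y) = 0 := fun y => by simp [HH, Hf, he]
    simp [h]
  obtain ⟨g, hlip, -, hanti, hle, hlim⟩ :=
    exists_supconv (fb L x) (fb_closed hL x) hne (fb_low hL x) (fb_mid hL x)
  have hgc : ∀ N, Continuous fun y => max (g N y) 0 := fun N => by
    obtain ⟨K, hK⟩ := hlip N
    exact hK.continuous.max continuous_const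
  have hb : ∀ N y, |max (g N y) 0| ≤ 1 := fun N y => by
    rw [abs_of_nonneg (le_max_right _ _)]
    exact max_le (hle N y) zero_le_one
  obtain ⟨B, hB⟩ := isCompact_univ.exists_bound_of_continuousOn hf.continuousOn
  have l1 : Tendsto (fun N => ∫ y, max (g N y) 0) atTop (𝓝 (∫ y, HH L (x, y))) :=
    CubeH.lim1 hgc hb hlim
  have l2 : Tendsto (fun N => ∫ y, f y * max (g N y) 0) atTop
      (𝓝 (∫ y, f y * HH L (x, y))) := by
    refine CubeH.limB (max B 0) (fun N => hf.mul (hgc N)) (fun N y => ?_)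
      (fun y => (hlim y).const_mul _)
    rw [abs_mul]
    calc |f y| * |max (g N y) 0| ≤ max B 0 * 1 :=
          mul_le_mul ((hB y (mem_univ y)).trans (le_max_left _ _)) (hb N y) (abs_nonneg _)
            (le_max_right _ _)
      _ = max B 0 := mul_one _
  refine le_of_tendsto_of_tendsto' l2 (l1.const_mul _) fun N => ?_
  refine Sf_weight hf (fun a b hab => max_le_max (hanti N hab) le_rfl) (fun y => le_max_right _ _) ?_
  obtain ⟨K, hK⟩ := hlip N
  exact ⟨K, hK.max_const 0⟩

/-- The section of the sup-convolution. -/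
noncomputable def sec (L : Set ((Fin q → ℝ) × X (n + 1))) (M : ℕ) (x : Fin q → ℝ) (y : X n) : ℝ :=
  sG L M (x, y)

theorem sec_lip (hL : CL L) (M : ℕ) (x : Fin q → ℝ) : LipschitzWith (M : ℝ≥0) (sec L M x) := by
  refine LipschitzWith.of_dist_le_mul fun a b => ?_
  refine ((sG_lip hL M).dist_le_mul _ _).trans (mul_le_mul_of_nonneg_left ?_ (M : ℝ≥0).2)
  rw [Prod.dist_eq, dist_self]
  exact max_le dist_nonneg le_rfl

theorem sec_rel (hL : CL L) (M : ℕ) (s t : Fin q → ℝ) :
    Rel (sec L M ((1 / 2 : ℝ) • (s + t))) (sec L M s) (sec L M t) := fun a b =>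
  sG_mid hL M (s, a) (t, b)

theorem sec_PSrel (hL : CL L) (M : ℕ) (u : Option (Fin n) → ℝ) (hu : 0 ≤ u none)
    (s t : Fin q → ℝ) :
    Rel (D2PS (sec L M ((1 / 2 : ℝ) • (s + t))) u) (D2PS (sec L M s) u) (D2PS (sec L M t) u) := by
  intro x y
  rw [d2_PS_eq, d2_PS_eq, d2_PS_eq]
  have h1 : ∑ k, u (some k) * ((mid x y k : unitInterval) : ℝ) =
      (∑ k, u (some k) * ((x k : unitInterval) : ℝ) +
        ∑ k, u (some k) * ((y k : unitInterval) : ℝ)) / 2 := by
    rw [← Finset.sum_add_distrib, Finset.sum_div]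
    exact Finset.sum_congr rfl (fun k _ => by rw [d2_mid_coe]; ring)
  rw [h1]
  have := mul_le_mul_of_nonneg_left (sec_rel hL M s t x y) hu
  linarith

theorem sec_good (hL : CL L) (M : ℕ) (u : Option (Fin n) → ℝ) (hu : 0 ≤ u none)
    (t : Fin q → ℝ) :
    Good (Real.toNNReal (∑ i, |u i|) * ((M : ℝ≥0) + 1)) (D2PS (sec L M t) u) := by
  refine ⟨d2_PS_lip (sec_lip hL M t) u _ (Real.le_coe_toNNReal _), ?_⟩
  have h := sec_PSrel hL M u hu t t
  have e : (1 / 2 : ℝ) • (t + t) = t := by module
  rw [e] at h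
  exact h

/-- The concave function of the free variable. -/
noncomputable def Phi (L : Set ((Fin q → ℝ) × X (n + 1))) (M : ℕ) (u : Option (Fin n) → ℝ)
    (x : Fin q → ℝ) : ℝ := Sf (D2PS (sec L M x) u)

theorem Phi_cont (hL : CL L) (M : ℕ) (u : Option (Fin n) → ℝ) : Continuous (Phi L M u) := by
  have h : LipschitzWith (Real.toNNReal |u none| * (M : ℝ≥0)) (Phi L M u) := by
    refine LipschitzWith.of_dist_le_mul fun s t => ?_
    rw [Real.dist_eq]
    refine Sf_dist (d2_PS_cont (sec_lip hL M s) u) (d2_PS_cont (sec_lip hL M t) u) fun x => ?_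
    rw [d2_PS_eq, d2_PS_eq]
    have e : u none * sec L M s x + ∑ k, u (some k) * ((x k : unitInterval) : ℝ) -
        (u none * sec L M t x + ∑ k, u (some k) * ((x k : unitInterval) : ℝ)) =
        u none * (sec L M s x - sec L M t x) := by ring
    rw [e, abs_mul, NNReal.coe_mul, Real.coe_toNNReal _ (abs_nonneg _), mul_assoc]
    refine mul_le_mul_of_nonneg_left ?_ (abs_nonneg _)
    rw [← Real.dist_eq]
    refine ((sG_lip hL M).dist_le_mul (s, x) (t, x)).trans
      (mul_le_mul_of_nonneg_left ?_ (M : ℝ≥0).2)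
    rw [Prod.dist_eq]
    simp only [dist_self]
    exact max_le le_rfl dist_nonneg
  exact h.continuous

theorem Phi_mid (hL : CL L) (M : ℕ) (u : Option (Fin n) → ℝ) (hu : 0 ≤ u none)
    (s t : Fin q → ℝ) :
    (Phi L M u s + Phi L M u t) / 2 ≤ Phi L M u ((1 / 2 : ℝ) • (s + t)) :=
  Sf_mid (sec_good hL M u hu s) (sec_good hL M u hu t) (sec_good hL M u hu _)
    (sec_PSrel hL M u hu s t)

/-- mass of the fibre -/
noncomputable def mass (L : Set ((Fin q → ℝ) × X (n + 1))) (x : Fin q → ℝ) : ℝ :=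
  ∫ y : X n, HH L (x, y)

theorem mass_int (hL : CL L) {φ : (Fin q → ℝ) → ℝ} (hφ : Continuous φ) :
    Integrable fun x => φ x * mass L x := by
  have h := FH_int' hL (F := fun z : (Fin q → ℝ) × X n => φ z.1) (hφ.comp continuous_fst)
  refine h.congr (Eventually.of_forall fun x => ?_)
  simp only [mass]
  rw [integral_const_mul]

theorem mass_meas (hL : CL L) : Measurable (mass L) :=
  ((HH_meas hL).stronglyMeasurable.integral_prod_right').measurable

theorem mass_nonneg (x : Fin q → ℝ) : 0 ≤ mass L x := integral_nonneg fun _ => HH_nonneg _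

theorem key (hL : CL L) (M : ℕ) (u : Option (Fin n) → ℝ) (hu : 0 ≤ u none) {T : Fin q → ℝ}
    (hT : ∀ j, T j * ∫ x, mass L x = ∫ x : Fin q → ℝ, x j * mass L x) :
    u none * (∫ x, ∫ y, sG L M (x, y) * HH L (x, y)) +
      ∑ k : Fin n, u (some k) * (∫ x : Fin q → ℝ, ∫ y : X n, ((y k : unitInterval) : ℝ) * HH L (x, y))
      ≤ Phi L M u T * ∫ x, mass L x := by
  have hk : ∀ k : Fin n, Continuous fun z : (Fin q → ℝ) × X n => ((z.2 k : unitInterval) : ℝ) :=
    fun k => continuous_subtype_val.comp ((continuous_apply k).comp continuous_snd)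
  have hsG := (sG_lip hL M).continuous
  have i0 := FH_int' hL hsG
  have ik : ∀ k : Fin n, Integrable fun x : Fin q → ℝ =>
      ∫ y : X n, ((y k : unitInterval) : ℝ) * HH L (x, y) := fun k => FH_int' hL (hk k)
  have hm1 : Integrable (mass L) := by
    have := mass_int hL (φ := fun _ => 1) continuous_const
    simpa using this
  have e1 : u none * (∫ x, ∫ y, sG L M (x, y) * HH L (x, y)) +
      ∑ k : Fin n, u (some k) * (∫ x : Fin q → ℝ, ∫ y : X n, ((y k : unitInterval) : ℝ) * HH L (x, y))
      = ∫ x : Fin q → ℝ, (u none * (∫ y, sG L M (x, y) * HH L (x, y)) +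
        ∑ k : Fin n, u (some k) * ∫ y : X n, ((y k : unitInterval) : ℝ) * HH L (x, y)) := by
    rw [integral_add (i0.const_mul _) (integrable_finsetSum _ fun k _ => (ik k).const_mul _),
      integral_const_mul, integral_finsetSum _ fun k _ => (ik k).const_mul _]
    congr 1
    exact Finset.sum_congr rfl fun k _ => (integral_const_mul _ _).symm
  rw [e1]
  have hj := jensenE (Phi_cont hL M u) (Phi_mid hL M u hu) (mass_meas hL) mass_nonneg hm1
    (fun j => mass_int hL (continuous_apply j)) (mass_int hL (Phi_cont hL M u)) hT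
  refine le_trans ?_ hj
  refine integral_mono ((i0.const_mul _).add (integrable_finsetSum _ fun k _ => (ik k).const_mul _))
    (mass_int hL (Phi_cont hL M u)) fun x => ?_
  have h1 := Sf_fibre hL x (d2_PS_cont (sec_lip hL M x) u)
  refine le_trans (le_of_eq ?_) h1
  have hHx : Measurable fun y : X n => HH L (x, y) := (HH_meas hL).comp measurable_prodMk_left
  have hcy : ∀ {f : X n → ℝ}, Continuous f → Integrable fun y => f y * HH L (x, y) := by
    intro f hf
    obtain ⟨B, hB⟩ := isCompact_univ.exists_bound_of_continuousOn hf.continuousOn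
    refine Integrable.of_bound (C := B) (hf.measurable.mul hHx).aestronglyMeasurable
      (Eventually.of_forall fun y => ?_)
    rw [norm_mul]
    have h2 : ‖HH L (x, y)‖ ≤ 1 := by
      rw [Real.norm_eq_abs, abs_of_nonneg (HH_nonneg _)]
      exact HH_le_one _
    calc ‖f y‖ * ‖HH L (x, y)‖ ≤ ‖f y‖ * 1 := mul_le_mul_of_nonneg_left h2 (norm_nonneg _)
      _ ≤ B := by rw [mul_one]; exact hB y (mem_univ y)
  have j0 : Integrable fun y : X n => sG L M (x, y) * HH L (x, y) :=
    hcy (f := fun y => sG L M (x, y)) (sec_lip hL M x).continuous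
  have jk : ∀ k : Fin n, Integrable fun y : X n => ((y k : unitInterval) : ℝ) * HH L (x, y) :=
    fun k => hcy (f := fun y : X n => ((y k : unitInterval) : ℝ))
      (continuous_subtype_val.comp (continuous_apply k))
  simp only
  rw [← integral_const_mul]
  have e2 : ∀ k : Fin n, u (some k) * ∫ y : X n, ((y k : unitInterval) : ℝ) * HH L (x, y) =
      ∫ y : X n, u (some k) * (((y k : unitInterval) : ℝ) * HH L (x, y)) :=
    fun k => (integral_const_mul _ _).symm
  simp_rw [e2]
  rw [← integral_finsetSum _ (fun k _ => (jk k).const_mul _), ← integral_add (j0.const_mul _)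
    (integrable_finsetSum _ fun k _ => (jk k).const_mul _)]
  refine integral_congr_ae (Eventually.of_forall fun y => ?_)
  simp only
  rw [d2_PS_eq, add_mul, Finset.sum_mul]
  simp only [sec]
  congr 1
  · ring
  · exact Finset.sum_congr rfl fun k _ => by ring

end Vale.Agent.P254.H4
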