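import Vale.Agent.P254.MathlibUsed

/-!
P254: a one dimensional inequality and its consequence for hyperplane sections.
-/

open MeasureTheory Set

namespace Vale.Agent.P254.H4

/-- The value of the integral of `(t - μ)² - r²` over `[μ - r, μ + r]`. -/
lemma int_quad (μ r : ℝ) : ∫ t in (μ - r)..(μ + r), ((t - μ) ^ 2 - r ^ 2) = -(4 / 3) * r ^ 3 := by
  rw [intervalIntegral.integral_sub
    ((by fun_prop : Continuous fun t : ℝ => (t - μ) ^ 2).intervalIntegrable _ _)
    ((by fun_prop : Continuous fun _ : ℝ => r ^ 2).intervalIntegrable _ _)]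
  have h1 : ∫ t in (μ - r)..(μ + r), (t - μ) ^ 2 = 2 / 3 * r ^ 3 := by
    rw [intervalIntegral.integral_comp_sub_right (fun t => t ^ 2) μ, integral_pow]
    ring
  rw [h1]
  simp
  ring

/-- A density bounded by `B` has a large variance. -/
lemma var_lower {f : ℝ → ℝ} {B μ : ℝ} (hB : 0 < B) (hf0 : ∀ t, 0 ≤ f t) (hfB : ∀ t, f t ≤ B)
    (hf : Integrable f) (hf2 : Integrable fun t => (t - μ) ^ 2 * f t) :
    (∫ t, f t) ^ 3 ≤ 12 * B ^ 2 * ∫ t, (t - μ) ^ 2 * f t := by
  set V := ∫ t, f t with hV
  have hV0 : 0 ≤ V := integral_nonneg hf0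
  set r := V / (2 * B) with hr
  have hr0 : 0 ≤ r := by positivity
  set g : ℝ → ℝ := fun t => ((t - μ) ^ 2 - r ^ 2) with hg
  have hle : μ - r ≤ μ + r := by linarith
  have hcont : Continuous g := by fun_prop
  have hint : IntegrableOn (fun t => g t * B) (Icc (μ - r) (μ + r)) :=
    ((hcont.mul continuous_const).continuousOn).integrableOn_compact isCompact_Icc
  have h1 : ∫ t, (Icc (μ - r) (μ + r)).indicator (fun t => g t * B) t ≤ ∫ t, g t * f t := by
    refine integral_mono (hint.integrable_indicator measurableSet_Icc) ?_ ?_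
    · have : (fun t => g t * f t) = fun t => (t - μ) ^ 2 * f t - r ^ 2 * f t := by
        funext t; simp only [hg]; ring
      rw [this]
      exact hf2.sub (hf.const_mul _)
    · intro t
      by_cases ht : t ∈ Icc (μ - r) (μ + r)
      · simp only [indicator_of_mem ht]
        have h2 : g t ≤ 0 := by
          have : |t - μ| ≤ r := by rw [abs_le]; constructor <;> linarith [ht.1, ht.2]
          have := sq_le_sq' (by linarith [abs_le.mp this]) (abs_le.mp this).2
          simp only [hg]; linarith
        exact mul_le_mul_of_nonpos_left (hfB t) h2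
      · simp only [indicator_of_notMem ht]
        refine mul_nonneg ?_ (hf0 t)
        have : r ≤ |t - μ| := by
          by_contra hc
          push Not at hc
          have := abs_lt.mp hc
          exact ht ⟨by linarith, by linarith⟩
        have h3 : r ^ 2 ≤ |t - μ| ^ 2 := pow_le_pow_left₀ hr0 this 2
        rw [sq_abs] at h3
        simp only [hg]; linarith
  rw [integral_indicator measurableSet_Icc, integral_Icc_eq_integral_Ioc,
    ← intervalIntegral.integral_of_le hle, intervalIntegral.integral_mul_const] at h1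
  have h4 := int_quad μ r
  simp only [hg] at h1
  rw [h4] at h1
  have h5 : ∫ t, ((t - μ) ^ 2 - r ^ 2) * f t = (∫ t, (t - μ) ^ 2 * f t) - r ^ 2 * V := by
    rw [hV, ← integral_const_mul, ← integral_sub hf2 (hf.const_mul _)]
    congr 1; funext t; ring
  rw [h5] at h1
  have h6 : r * (2 * B) = V := by rw [hr]; field_simp
  have h7 : V ^ 3 = 8 * B ^ 3 * r ^ 3 := by rw [← h6]; ring
  have h8 : r ^ 2 * V = 2 * B * r ^ 3 := by rw [← h6]; ring
  rw [h8] at h1
  rw [h7]
  have : 2 / 3 * B * r ^ 3 ≤ ∫ t, (t - μ) ^ 2 * f t := by linarith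
  nlinarith [mul_le_mul_of_nonneg_left this (by positivity : (0 : ℝ) ≤ 12 * B ^ 2)]

/-- The slice `{y : (t, y) ∈ L}`. -/
def sl {m : ℕ} (L : Set (Fin (m + 1) → ℝ)) (t : ℝ) : Set (Fin m → ℝ) :=
  {y | (Fin.cons t y : Fin (m + 1) → ℝ) ∈ L}

lemma cons_eq {m : ℕ} (p : ℝ × (Fin m → ℝ)) :
    (MeasurableEquiv.piFinSuccAbove (fun _ => ℝ) (0 : Fin (m + 1))).symm p
      = (Fin.cons p.1 p.2 : Fin (m + 1) → ℝ) := by
  simp [MeasurableEquiv.piFinSuccAbove, Fin.insertNthEquiv]

/-- Fubini for a set and a function of the first coordinate. -/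
lemma fubini {m : ℕ} {L : Set (Fin (m + 1) → ℝ)} (hL : IsCompact L) {h : ℝ → ℝ}
    (hh : Continuous h) :
    (∫ z in L, h (z 0)) = ∫ t, h t * (volume (sl L t)).toReal ∧
      Integrable fun t => h t * (volume (sl L t)).toReal := by
  have hmp := (MeasureTheory.volume_preserving_piFinSuccAbove (fun _ => ℝ) (0 : Fin (m + 1))).symm
  have hLm : MeasurableSet L := hL.measurableSet
  have hint : Integrable (L.indicator fun z => h (z 0)) :=
    ((by fun_prop : Continuous fun z : Fin (m + 1) → ℝ => h (z 0)).continuousOn.integrableOn_compact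
      hL).integrable_indicator hLm
  have hint2 := hmp.integrable_comp_of_integrable hint
  have e1 : (∫ z in L, h (z 0)) = ∫ p : ℝ × (Fin m → ℝ),
      (L.indicator fun z => h (z 0)) ((MeasurableEquiv.piFinSuccAbove (fun _ => ℝ)
        (0 : Fin (m + 1))).symm p) := by
    rw [← integral_indicator hLm]
    exact (hmp.integral_comp (MeasurableEquiv.measurableEmbedding _) _).symm
  have e2 : ∀ t : ℝ, (∫ y : Fin m → ℝ, (L.indicator fun z => h (z 0))
      ((MeasurableEquiv.piFinSuccAbove (fun _ => ℝ) (0 : Fin (m + 1))).symm (t, y)))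
      = h t * (volume (sl L t)).toReal := by
    intro t
    have hs : MeasurableSet (sl L t) := by
      have : Measurable fun y : Fin m → ℝ => (Fin.cons t y : Fin (m + 1) → ℝ) := by
        refine measurable_pi_iff.mpr fun i => ?_
        refine Fin.cases ?_ (fun j => ?_) i
        · simp
        · simpa using measurable_pi_apply j
      exact this hLm
    have : ∀ y : Fin m → ℝ, (L.indicator fun z => h (z 0))
        ((MeasurableEquiv.piFinSuccAbove (fun _ => ℝ) (0 : Fin (m + 1))).symm (t, y))
        = (sl L t).indicator (fun _ => h t) y := by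
      intro y
      rw [cons_eq]
      by_cases hy : (Fin.cons t y : Fin (m + 1) → ℝ) ∈ L
      · rw [indicator_of_mem hy, indicator_of_mem (by exact hy)]
        simp
      · rw [indicator_of_notMem hy, indicator_of_notMem (by exact hy)]
    simp_rw [this]
    rw [integral_indicator hs, setIntegral_const]
    simp [Measure.real, mul_comm]
  constructor
  · exact e1.trans ((integral_prod _ hint2).trans
      (integral_congr_ae (Filter.Eventually.of_forall e2)))
  · have h3 := hint2.integral_prod_left
    refine h3.congr (Filter.Eventually.of_forall fun t => ?_)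
    exact e2 t

/-- If all slices of `L` have volume at most `B`, the second moment of the first coordinate is
large. -/
lemma mom_lower {m : ℕ} {L : Set (Fin (m + 1) → ℝ)} (hL : IsCompact L) {B μ : ℝ} (hB : 0 < B)
    (hs : ∀ t, (volume (sl L t)).toReal ≤ B) :
    (volume L).toReal ^ 3 ≤ 12 * B ^ 2 * ∫ z in L, (z 0 - μ) ^ 2 := by
  obtain ⟨h1, h1i⟩ := fubini hL (h := fun _ => 1) continuous_const
  obtain ⟨h2, h2i⟩ := fubini hL (h := fun t => (t - μ) ^ 2) (by fun_prop)
  simp only [one_mul] at h1 h1i
  have h3 : (∫ _ in L, (1 : ℝ)) = (volume L).toReal := by simp [Measure.real]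
  rw [h2, ← h3, h1]
  exact var_lower hB (fun _ => ENNReal.toReal_nonneg) hs h1i h2i

end Vale.Agent.P254.H4
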