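import Vale.Agent.P254.H4.Func

/-!
P254: the volume inequality with `q` free variables in `ℝ^q × ℝ^p`.
-/

open MeasureTheory Set Filter Topology
open scoped NNReal Pointwise

namespace Vale.Agent.P254.H4

open Unc FV1

variable {q n : ℕ}

/-- The fibre over `x`. -/
def fib {p : ℕ} (K : Set ((Fin q → ℝ) × (Fin p → ℝ))) (x : Fin q → ℝ) : Set (Fin p → ℝ) :=
  {y | (x, y) ∈ K}

theorem real_q {K : Set ((Fin q → ℝ) × (Fin (n + 1) → ℝ))} (hK : IsCompact K) (hc : Convex ℝ K)
    (hne : K.Nonempty) (hpos : ∀ z ∈ K, ∀ k, 0 ≤ z.2 k)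
    (hlow : ∀ z ∈ K, ∀ y : Fin (n + 1) → ℝ, (∀ k, 0 ≤ y k ∧ y k ≤ z.2 k) → (z.1, y) ∈ K)
    {T : Fin q → ℝ}
    (hT : ∀ j, T j * ∫ x, (volume (fib K x)).toReal =
      ∫ x : Fin q → ℝ, x j * (volume (fib K x)).toReal) :
    ∏ k : Fin (n + 1), (2 * ∫ x : Fin q → ℝ, ∫ y in fib K x, y k) ≤
      (∫ x, (volume (fib K x)).toReal) ^ (n + 1) * (volume (fib K T)).toReal := by
  obtain ⟨C, hC⟩ := hK.isBounded.exists_norm_le
  set R : ℝ := max C 1 with hRdef
  have hR : 0 < R := lt_max_of_lt_right one_pos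
  have hR0 : R ≠ 0 := hR.ne'
  have hKR : ∀ z ∈ K, ∀ k, z.2 k ≤ R := fun z hz k =>
    (le_abs_self _).trans (((norm_le_pi_norm z.2 k).trans (norm_snd_le z)).trans
      ((hC z hz).trans (le_max_left _ _)))
  set L : Set ((Fin q → ℝ) × X (n + 1)) :=
    (fun z : (Fin q → ℝ) × X (n + 1) => (z.1, R • inc z.2)) ⁻¹' K with hL
  have hcinc : Continuous (inc : X (n + 1) → Fin (n + 1) → ℝ) := continuous_inc
  have hcont : Continuous fun z : (Fin q → ℝ) × X (n + 1) => (z.1, R • inc z.2) :=
    continuous_fst.prodMk ((hcinc.comp continuous_snd).const_smul R)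
  have hLcl : IsClosed L := hK.isClosed.preimage hcont
  have hCL : CL L := by
    refine ⟨?_, ?_, ?_, ?_⟩
    · refine ((hK.image continuous_fst).prod isCompact_univ).of_isClosed_subset hLcl ?_
      intro z hz
      exact ⟨⟨_, hz, rfl⟩, mem_univ _⟩
    · obtain ⟨z, hz⟩ := hne
      have h1 : ∀ k, z.2 k / R ∈ Icc (0 : ℝ) 1 := fun k =>
        ⟨div_nonneg (hpos z hz k) hR.le, (div_le_one hR).2 (hKR z hz k)⟩
      refine ⟨(z.1, fun k => ⟨z.2 k / R, h1 k⟩), ?_⟩
      have e : R • inc (fun k => (⟨z.2 k / R, h1 k⟩ : unitInterval)) = z.2 := by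
        funext k
        simp only [inc, Pi.smul_apply, smul_eq_mul]
        field_simp
      simp only [hL, mem_preimage]
      rw [e]
      exact hz
    · intro a ha b hb
      have h := hc ha hb (by norm_num : (0 : ℝ) ≤ 1 / 2) (by norm_num : (0 : ℝ) ≤ 1 / 2)
        (by norm_num)
      have e : (1 / 2 : ℝ) • (a.1, R • inc a.2) + (1 / 2 : ℝ) • (b.1, R • inc b.2) =
          ((1 / 2 : ℝ) • (a.1 + b.1), R • inc (Unc.mid a.2 b.2)) := by
        refine Prod.ext ?_ ?_
        · simp only [Prod.fst_add, Prod.smul_fst]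
          module
        · simp only [Prod.snd_add, Prod.smul_snd]
          funext k
          simp only [inc, Unc.mid, mid1, Pi.add_apply, Pi.smul_apply, smul_eq_mul]
          ring
      simp only [hL, mem_preimage]
      rw [← e]
      exact h
    · intro a ha w hw
      refine hlow _ ha _ fun k => ⟨?_, ?_⟩
      · simp only [inc, Pi.smul_apply, smul_eq_mul]
        exact mul_nonneg hR.le (w k).2.1
      · simp only [inc, Pi.smul_apply, smul_eq_mul]
        exact mul_le_mul_of_nonneg_left (hw k) hR.le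
  -- transfer
  have hfb : ∀ x, fb L x = inc ⁻¹' (R⁻¹ • fib K x) := by
    intro x
    ext w
    rw [mem_preimage, mem_inv_smul_set_iff₀ hR0]
    rfl
  have hfc : ∀ x, IsCompact (fib K x) := by
    intro x
    refine (hK.image continuous_snd).of_isClosed_subset
      (hK.isClosed.preimage (continuous_const.prodMk continuous_id)) ?_
    intro y hy
    exact ⟨(x, y), hy, rfl⟩
  have hsub : ∀ x, R⁻¹ • fib K x ⊆ Icc (0 : Fin (n + 1) → ℝ) 1 := by
    intro x y hy
    rw [mem_inv_smul_set_iff₀ hR0] at hy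
    constructor
    · intro k
      have h := hpos _ hy k
      simp only [Pi.smul_apply, smul_eq_mul] at h
      exact nonneg_of_mul_nonneg_right h hR
    · intro k
      have h := hKR _ hy k
      simp only [Pi.smul_apply, smul_eq_mul] at h
      exact le_of_mul_le_mul_left (show R * y k ≤ R * 1 by linarith) hR
  have hvol : ∀ x, (volume (fib K x)).toReal = R ^ (n + 1) * (volume (fb L x)).toReal := by
    intro x
    rw [hfb, (measurePreserving_inc (n + 1)).measure_preimage_emb measurableEmbedding_inc,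
      Measure.restrict_apply' measurableSet_Icc, inter_eq_left.2 (hsub x)]
    conv_lhs => rw [← smul_inv_smul₀ hR0 (fib K x)]
    rw [Measure.addHaar_smul, ENNReal.toReal_mul, ENNReal.toReal_ofReal (abs_nonneg _),
      abs_of_pos (by positivity)]
    simp
  have hint : ∀ x (k : Fin (n + 1)), ∫ y in fib K x, y k =
      R ^ (n + 2) * ∫ w in fb L x, ((w k : unitInterval) : ℝ) := by
    intro x k
    have h1 : ∫ y in fib K x, y k = R ^ (n + 2) * ∫ y in R⁻¹ • fib K x, y k := by
      have := Measure.setIntegral_comp_smul (μ := (volume : Measure (Fin (n + 1) → ℝ)))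
        (fun x : Fin (n + 1) → ℝ => x k) (R⁻¹ • fib K x) hR0
      rw [smul_inv_smul₀ hR0] at this
      simp only [Pi.smul_apply, smul_eq_mul, Module.finrank_fintype_fun_eq_card,
        Fintype.card_fin, integral_const_mul] at this
      rw [abs_of_pos (by positivity)] at this
      have hRn : R ^ (n + 1) ≠ 0 := pow_ne_zero _ hR0
      rw [pow_succ, mul_assoc, this, mul_inv_cancel_left₀ hRn]
    rw [h1, hfb]
    congr 1
    have h2 := (measurePreserving_inc (n + 1)).setIntegral_preimage_emb measurableEmbedding_inc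
      (fun y : Fin (n + 1) → ℝ => y k) (R⁻¹ • fib K x)
    rw [Measure.restrict_restrict_of_subset (hsub x)] at h2
    rw [← h2]
    rfl
  simp_rw [hint, hvol] at hT ⊢
  simp_rw [integral_const_mul] at hT ⊢
  have hT' : ∀ j, T j * ∫ x, (volume (fb L x)).toReal =
      ∫ x : Fin q → ℝ, x j * (volume (fb L x)).toReal := by
    intro j
    have h := hT j
    have e : ∫ x : Fin q → ℝ, x j * (R ^ (n + 1) * (volume (fb L x)).toReal) =
        R ^ (n + 1) * ∫ x : Fin q → ℝ, x j * (volume (fb L x)).toReal := by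
      rw [← integral_const_mul]
      congr 1
      funext x
      ring
    rw [e] at h
    have hRn : R ^ (n + 1) ≠ 0 := pow_ne_zero _ hR0
    apply mul_left_cancel₀ hRn
    rw [← h]
    ring
  have main := func_q hCL hT'
  calc ∏ k : Fin (n + 1), (2 * (R ^ (n + 2) * ∫ x : Fin q → ℝ, ∫ w in fb L x,
        ((w k : unitInterval) : ℝ)))
      = (R ^ (n + 2)) ^ (n + 1) * ∏ k : Fin (n + 1), (2 * ∫ x : Fin q → ℝ, ∫ w in fb L x,
        ((w k : unitInterval) : ℝ)) := by
        have e : ∀ k : Fin (n + 1), 2 * (R ^ (n + 2) * ∫ x : Fin q → ℝ, ∫ w in fb L x,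
            ((w k : unitInterval) : ℝ)) = R ^ (n + 2) * (2 * ∫ x : Fin q → ℝ, ∫ w in fb L x,
            ((w k : unitInterval) : ℝ)) := fun k => by ring
        simp_rw [e]
        rw [Finset.prod_mul_distrib, Finset.prod_const, Finset.card_univ, Fintype.card_fin]
    _ ≤ (R ^ (n + 2)) ^ (n + 1) * ((∫ x, (volume (fb L x)).toReal) ^ (n + 1) *
        (volume (fb L T)).toReal) := mul_le_mul_of_nonneg_left main (by positivity)
    _ = (R ^ (n + 1) * ∫ x, (volume (fb L x)).toReal) ^ (n + 1) *
        (R ^ (n + 1) * (volume (fb L T)).toReal) := by ring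

end Vale.Agent.P254.H4
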