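import Vale.Agent.P254.H4.Abs

/-!
P254: the bound for the bodies with reflections in `p` directions.
-/

open MeasureTheory Set Matrix

namespace Vale.Agent.P254.H4

open Refl FV

variable {n q p : ℕ}

theorem cov_zero {K : Set (Fin n → ℝ)} (hK : IsCompact K) {i j : Fin n}
    (h0 : ∫ x in K, x i = 0) (h1 : ∫ x in K, x i * x j = 0) :
    covMatrix K i j = 0 ∧ covMatrix K j i = 0 := by
  have hc : centroid K i = 0 := by simp [centroid, h0]
  have hi : IntegrableOn (fun x : Fin n → ℝ => x i * x j) K :=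
    (by fun_prop : Continuous fun x : Fin n → ℝ => x i * x j).continuousOn.integrableOn_compact hK
  have hi2 : IntegrableOn (fun x : Fin n → ℝ => x i * centroid K j) K :=
    (by fun_prop : Continuous fun x : Fin n → ℝ =>
      x i * centroid K j).continuousOn.integrableOn_compact hK
  have h2 : ∫ x in K, x i * (x j - centroid K j) = 0 := by
    simp only [mul_sub]
    rw [integral_sub hi hi2, h1, integral_mul_const, h0]
    simp
  constructor
  · simp only [covMatrix, hc, sub_zero]
    rw [h2, mul_zero]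
  · simp only [covMatrix, hc, sub_zero]
    have h3 : ∫ x in K, (x j - centroid K j) * x i = 0 := by
      rw [← h2]
      exact integral_congr_ae (Filter.Eventually.of_forall fun x => mul_comm _ _)
    rw [h3, mul_zero]

theorem det_split {e : Fin n ≃ Fin q ⊕ Fin p} {K : Set (Fin n → ℝ)} (hK : IsCompact K)
    (h0 : ∀ k, ∫ x in K, x (ix e k) = 0)
    (h1 : ∀ k j, ix e k ≠ j → ∫ x in K, x (ix e k) * x j = 0) :
    (covMatrix K).det = (CQ e K).det *
      ∏ k : Fin p, ((volume K).toReal⁻¹ * ∫ x in K, x (ix e k) ^ 2) := by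
  have hB : covMatrix K = (fromBlocks (CQ e K) 0 0
      (diagonal fun k : Fin p => (volume K).toReal⁻¹ * ∫ x in K, x (ix e k) ^ 2)).submatrix e e := by
    ext i j
    obtain ⟨s, rfl⟩ := e.symm.surjective i
    obtain ⟨t, rfl⟩ := e.symm.surjective j
    rw [submatrix_apply, e.apply_symm_apply, e.apply_symm_apply]
    rcases s with a | a <;> rcases t with b | b
    · rw [fromBlocks_apply₁₁]
      rfl
    · rw [fromBlocks_apply₁₂, Matrix.zero_apply]
      exact (cov_zero hK (h0 b) (h1 b (iy e a) (iy_ne_ix a b).symm)).2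
    · rw [fromBlocks_apply₂₁, Matrix.zero_apply]
      exact (cov_zero hK (h0 a) (h1 a (iy e b) (iy_ne_ix b a).symm)).1
    · rw [fromBlocks_apply₂₂, diagonal_apply]
      change covMatrix K (ix e a) (ix e b) = _
      by_cases hij : a = b
      · subst hij
        have hc : centroid K (ix e a) = 0 := by simp [centroid, h0 a]
        simp only [if_true, covMatrix, hc, sub_zero, pow_two]
      · rw [if_neg hij]
        exact (cov_zero hK (h0 a) (h1 a (ix e b) fun h => hij (ix_inj h))).1
  rw [hB, det_submatrix_equiv_self, det_fromBlocks_zero₁₂, det_diagonal]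

open Classical in
/-- the size of the block `b` -/
noncomputable def bsz {β : Type} (lab : Fin n → β) (b : β) : ℕ :=
  (Finset.univ.filter fun i => lab i = b).card

theorem refl_bound {m : ℕ} {β : Type} {a : Fin n → Fin n → ℝ} {lab : Fin n → β} (hB : Blk a lab)
    {S₀ : Finset β} (hS₀ : ∀ b ∈ S₀, ∃ i, lab i = b) {K : Set (Fin n → ℝ)} (hK : IsConvexBody K)
    (hR : ∀ i, lab i ∈ S₀ → ∀ x ∈ K, rf (a i) x ∈ K) (e : Fin n ≃ Fin q ⊕ Fin (m + 1))
    (h1 : ∀ j, lab (iy e j) ∉ S₀) (h2 : ∀ k, lab (ix e k) ∈ S₀) :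
    Dn K ≤ Real.exp (7 / 20 * q) * ∏ k, E2.fm n (bsz lab (lab (ix e k))) := by
  classical
  obtain ⟨K', hc', hK', hφ, hm, -, hu⟩ := blocks_ind (D := fun b => E2.fm n (bsz lab b)) hB
    (fun b hb => stp hB b hb) (S₀ := S₀) hK.1 hK.2.1 hR S₀ (Finset.Subset.refl _) hS₀
  have hV := H637.vol_pos hK
  have hv : (volume K').toReal = (volume K).toReal := by
    have h := hφ (fun _ => 1) continuous_const (fun _ _ _ => rfl)
    rw [setIntegral_const, setIntegral_const] at h
    simpa [Measure.real] using h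
  have hbody : IsConvexBody K' := by
    refine body_of_vol hc' hK' fun h => ?_
    rw [h] at hv
    exact hV.ne hv
  have hs : SymE e K' := by
    have h := sym_of (T := Finset.univ.filter fun i => lab i ∈ S₀) (K := K') (fun i hi =>
      hu i (Finset.mem_filter.1 hi).2)
    refine fun x hx y hy1 hy2 => h x hx y (fun i hi => ?_) fun i hi => ?_
    · obtain ⟨s, rfl⟩ := e.symm.surjective i
      rcases s with j | j
      · exact hy1 j
      · exact absurd (Finset.mem_filter.2 ⟨Finset.mem_univ (e.symm (Sum.inr j)), h2 j⟩) hi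
    · obtain ⟨s, rfl⟩ := e.symm.surjective i
      rcases s with j | j
      · exact absurd (Finset.mem_filter.1 hi).2 (h1 j)
      · exact hy2 j
  have habs := sym_abs hbody hs
  have hcen : ∀ j, centroid K' (iy e j) = centroid K (iy e j) := by
    intro j
    simp only [centroid]
    rw [hv, hφ (fun x => x (iy e j)) (continuous_apply _) fun x y hxy => hxy _ (h1 j)]
  have hCQ : CQ e K' = CQ e K := by
    ext i j
    show covMatrix K' (iy e i) (iy e j) = covMatrix K (iy e i) (iy e j)
    simp only [covMatrix]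
    rw [hcen, hcen, hv]
    congr 1
    exact hφ (fun x => (x (iy e i) - centroid K (iy e i)) * (x (iy e j) - centroid K (iy e j)))
      (by fun_prop) fun x y hxy => by simp only [hxy _ (h1 i), hxy _ (h1 j)]
  obtain ⟨hm0, hm1⟩ := mom hB hK.2.1 hR
  have hdet := det_split (e := e) hK.2.1 (fun k => hm0 _ (h2 k)) fun k j hkj => hm1 _ (h2 k) j hkj
  set V : ℝ := (volume K).toReal with hVd
  rw [hCQ, hv] at habs
  have hC0 : 0 ≤ (CQ e K).det := by
    have h := (Fib.H863.cov_posDef hK)
    have h3 : (CQ e K) = (covMatrix K).submatrix (iy e) (iy e) := rfl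
    rw [h3]
    have h4 : (((covMatrix K).submatrix (iy e) (iy e))).PosSemidef := h.posSemidef.submatrix _
    exact h4.det_nonneg
  set D : Fin (m + 1) → ℝ := fun k => E2.fm n (bsz lab (lab (ix e k))) with hD
  have hD0 : ∀ k, 0 < D k := fun k => E2.fm_pos _ _
  set X : Fin (m + 1) → ℝ := fun k => ∫ x in K', |x (ix e k)| with hX
  have hk : ∀ k, V⁻¹ * ∫ x in K, x (ix e k) ^ 2 ≤ 16 * D k * X k ^ 2 / V ^ 2 := by
    intro k
    have h := hm (ix e k) (h2 k)
    rw [le_div_iff₀ (by positivity)]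
    calc V⁻¹ * (∫ x in K, x (ix e k) ^ 2) * V ^ 2 = V * ∫ x in K, x (ix e k) ^ 2 := by
          field_simp
      _ ≤ _ := h
  have hprod : ∏ k, (V⁻¹ * ∫ x in K, x (ix e k) ^ 2) ≤ ∏ k, (16 * D k * X k ^ 2 / V ^ 2) :=
    Finset.prod_le_prod (fun k _ => mul_nonneg (by positivity)
      (integral_nonneg fun x => sq_nonneg _)) fun k _ => hk k
  have hprod2 : ∏ k, (16 * D k * X k ^ 2 / V ^ 2) =
      16 ^ (m + 1) * (∏ k, D k) * (∏ k, X k) ^ 2 / V ^ (2 * (m + 1)) := by
    rw [Finset.prod_div_distrib, Finset.prod_mul_distrib, Finset.prod_mul_distrib,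
      Finset.prod_const, Finset.prod_const, Finset.card_univ, Fintype.card_fin, Finset.prod_pow,
      ← pow_mul]
  have hPD : 0 < ∏ k, D k := Finset.prod_pos fun k _ => hD0 k
  unfold Dn
  rw [hdet, div_le_iff₀ (by positivity)]
  calc (CQ e K).det * ∏ k, (V⁻¹ * ∫ x in K, x (ix e k) ^ 2)
      ≤ (CQ e K).det * (16 ^ (m + 1) * (∏ k, D k) * (∏ k, X k) ^ 2 / V ^ (2 * (m + 1))) := by
        rw [← hprod2]
        exact mul_le_mul_of_nonneg_left hprod hC0
    _ = 16 ^ (m + 1) * (∏ k, D k) / V ^ (2 * (m + 1)) * ((CQ e K).det * (∏ k, X k) ^ 2) := by ring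
    _ ≤ 16 ^ (m + 1) * (∏ k, D k) / V ^ (2 * (m + 1)) *
        (Real.exp (7 / 20 * q) / 16 ^ (m + 1) * V ^ (2 * (m + 1) + 2)) := by gcongr
    _ = _ := by
      have e1 : V ^ (2 * (m + 1) + 2) = V ^ (2 * (m + 1)) * V ^ 2 := pow_add V _ _
      have e2 : V ^ (2 * (m + 1)) ≠ 0 := pow_ne_zero _ hV.ne'
      have e3 : (16 : ℝ) ^ (m + 1) ≠ 0 := by positivity
      rw [e1]
      field_simp
      exact congrArg (fun t : ℝ => t ^ 2) hVd

end Vale.Agent.P254.H4
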