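import Vale.Agent.P254.H4.ReflB

/-!
P254: the numerical part for the systems of reflections with many components.
-/

open MeasureTheory Set Matrix

namespace Vale.Agent.P254.H4

open Refl Refl.D898

/-- `e² / 8` -/
noncomputable def cc : ℝ := Real.exp 2 / 8

theorem cc_pos : 0 < cc := by unfold cc; positivity

theorem dd_le {m : ℕ} (hm : 1 ≤ m) : dd m ≤ Real.exp (-(2 * (m : ℝ))) * cc := by
  have h1 := dd_stirling m
  have h2 := dd_stirling 1
  have h3 : Stirling.stirlingSeq (m + 1) ≤ Stirling.stirlingSeq (1 + 1) :=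
    Stirling.stirlingSeq'_antitone hm
  have h0 : 0 < Stirling.stirlingSeq (m + 1) := Stirling.stirlingSeq'_pos m
  have h4 : Stirling.stirlingSeq (m + 1) ^ 2 ≤ Stirling.stirlingSeq (1 + 1) ^ 2 :=
    pow_le_pow_left₀ h0.le h3 2
  have h5 : dd 1 = 1 / 8 := by
    unfold dd
    norm_num
  rw [h5] at h2
  have h6 : Stirling.stirlingSeq (1 + 1) ^ 2 = 1 / 16 * Real.exp 4 := by
    have h7 : Real.exp (-(2 * (((1 : ℕ) : ℝ) + 1))) = (Real.exp 4)⁻¹ := by
      rw [← Real.exp_neg]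
      norm_num
    rw [h7] at h2
    have h8 : Real.exp 4 ≠ 0 := (Real.exp_pos 4).ne'
    field_simp at h2 ⊢
    linarith
  rw [h1]
  calc 2 * Real.exp (-(2 * ((m : ℝ) + 1))) * Stirling.stirlingSeq (m + 1) ^ 2
      ≤ 2 * Real.exp (-(2 * ((m : ℝ) + 1))) * (1 / 16 * Real.exp 4) := by
        rw [← h6]
        exact mul_le_mul_of_nonneg_left h4 (by positivity)
    _ = Real.exp (-(2 * (m : ℝ))) * cc := by
      have e1 : Real.exp (-(2 * ((m : ℝ) + 1))) = Real.exp (-(2 * (m : ℝ))) * Real.exp (-2) := by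
        rw [← Real.exp_add]; congr 1; ring
      have e2 : Real.exp 4 = Real.exp 2 * Real.exp 2 := by
        rw [← Real.exp_add]; norm_num
      have e3 : Real.exp (-2) * Real.exp 2 = 1 := by
        rw [← Real.exp_add]; norm_num
      rw [e1, e2, cc]
      calc 2 * (Real.exp (-(2 * (m : ℝ))) * Real.exp (-2)) * (1 / 16 * (Real.exp 2 * Real.exp 2))
          = Real.exp (-(2 * (m : ℝ))) * (Real.exp (-2) * Real.exp 2) * (Real.exp 2 / 8) := by ring
        _ = _ := by rw [e3, mul_one]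

theorem dd_ge (n : ℕ) : 2 * Real.pi * Real.exp (-(2 * ((n : ℝ) + 1))) ≤ dd n := by
  rw [dd_stirling]
  have h1 : √Real.pi ≤ Stirling.stirlingSeq (n + 1) :=
    Stirling.sqrt_pi_le_stirlingSeq (Nat.succ_ne_zero n)
  have h2 := pow_le_pow_left₀ (Real.sqrt_nonneg _) h1 2
  rw [Real.sq_sqrt Real.pi_pos.le] at h2
  nlinarith [Real.exp_pos (-(2 * ((n : ℝ) + 1)))]

theorem exp18 : Real.exp (9 / 5) < 2 * Real.pi := by
  have h1 : Real.exp (9 / 5) = Real.exp 1 ^ 2 * Real.exp (-(1 / 5)) := by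
    rw [← Real.exp_nat_mul, ← Real.exp_add]
    norm_num
  have h2 : Real.exp (-(1 / 5)) ≤ 5 / 6 := by
    rw [Real.exp_neg]
    have h3 : (6 / 5 : ℝ) ≤ Real.exp (1 / 5) := by
      have := Real.add_one_le_exp (1 / 5 : ℝ)
      linarith
    calc (Real.exp (1 / 5))⁻¹ ≤ (6 / 5 : ℝ)⁻¹ := inv_anti₀ (by norm_num) h3
      _ = 5 / 6 := by norm_num
  have h4 : Real.exp 1 ^ 2 ≤ 2.7182818286 ^ 2 :=
    pow_le_pow_left₀ (Real.exp_pos 1).le Real.exp_one_lt_d9.le 2
  rw [h1]
  calc Real.exp 1 ^ 2 * Real.exp (-(1 / 5)) ≤ 2.7182818286 ^ 2 * (5 / 6) :=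
        mul_le_mul h4 h2 (Real.exp_pos _).le (by positivity)
    _ < 2 * 3.14 := by norm_num
    _ < 2 * Real.pi := by have := Real.pi_gt_d2; linarith

theorem cc_le : cc ≤ Real.exp (-(79 / 1000)) := by
  have h1 : Real.exp 2 * Real.exp (79 / 1000) ≤ 8 := by
    have h10 : Real.exp 2 = Real.exp 1 ^ 2 := by
      rw [← Real.exp_nat_mul]
      norm_num
    rw [h10]
    have h11 : Real.exp 1 ^ 2 ≤ 2.7182818286 ^ 2 :=
      pow_le_pow_left₀ (Real.exp_pos 1).le Real.exp_one_lt_d9.le 2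
    have h12 : Real.exp (79 / 1000) ≤ 1.08221 := by
      have h13 := Real.exp_bound' (x := 79 / 1000) (by norm_num) (by norm_num) (n := 5) (by norm_num)
      refine h13.trans ?_
      norm_num [Finset.sum_range_succ, Nat.factorial]
    calc Real.exp 1 ^ 2 * Real.exp (79 / 1000) ≤ 2.7182818286 ^ 2 * 1.08221 :=
          mul_le_mul h11 h12 (Real.exp_pos _).le (by positivity)
      _ ≤ 8 := by norm_num
  rw [cc, Real.exp_neg, ← one_div, le_div_iff₀ (Real.exp_pos _)]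
  linarith

/-- the numerical condition -/
theorem num {q p n N N' : ℕ} (hn : n = q + p) (hN : N' ≤ p) (hNN : N ≤ N')
    (h : 30 * q + 3 ≤ N) :
    Real.exp (7 / 20 * q) * (Real.exp (-(2 * (p : ℝ))) * cc ^ N' *
      (((n : ℝ) + 1) / ((n : ℝ) + 2)) ^ p) <
    Real.exp (-(79 / 1000 * ((N : ℝ) - 30 * q - 3))) * FV.simpC n := by
  have hr0 : 0 < ((n : ℝ) + 1) / ((n : ℝ) + 2) := by positivity
  set r : ℝ := ((n : ℝ) + 1) / ((n : ℝ) + 2) with hr
  have hC : FV.simpC n = dd n * r ^ n := by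
    rw [hr, ← E2.cst_eq, cst_eq_simpC]
  rw [hC, hn, pow_add, ← hn]
  have hrp : 0 < r ^ p := pow_pos hr0 _
  have hrq : Real.exp (-((q : ℝ) / (n + 1))) ≤ r ^ q := by
    have h1 : Real.exp (-(1 / ((n : ℝ) + 1))) ≤ r := by
      rw [Real.exp_neg]
      have h2 : ((n : ℝ) + 2) / (n + 1) ≤ Real.exp (1 / ((n : ℝ) + 1)) := by
        have h3 := Real.add_one_le_exp (1 / ((n : ℝ) + 1))
        have h4 : ((n : ℝ) + 2) / (n + 1) = 1 / ((n : ℝ) + 1) + 1 := by
          field_simp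
          ring
        linarith
      calc (Real.exp (1 / ((n : ℝ) + 1)))⁻¹ ≤ (((n : ℝ) + 2) / (n + 1))⁻¹ :=
            inv_anti₀ (by positivity) h2
        _ = r := by rw [inv_div]
    have h5 := pow_le_pow_left₀ (Real.exp_pos _).le h1 q
    have e5 : Real.exp (-(1 / ((n : ℝ) + 1))) ^ q = Real.exp (-((q : ℝ) / (n + 1))) := by
      rw [← Real.exp_nat_mul]
      congr 1
      ring
    rw [← e5]
    exact h5
  have hNNr : (N : ℝ) ≤ N' := by exact_mod_cast hNN
  have hcN : cc ^ N' ≤ Real.exp (-(79 / 1000 * N)) := by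
    have h1 := pow_le_pow_left₀ cc_pos.le cc_le N'
    have e1 : Real.exp (-(79 / 1000)) ^ N' = Real.exp (-(79 / 1000 * N')) := by
      rw [← Real.exp_nat_mul]
      congr 1
      ring
    rw [e1] at h1
    exact h1.trans (Real.exp_le_exp.2 (by linarith))
  have hdd : Real.exp (9 / 5 - 2 * ((n : ℝ) + 1)) ≤ dd n := by
    refine le_trans ?_ (dd_ge n)
    rw [sub_eq_add_neg, Real.exp_add]
    exact mul_le_mul_of_nonneg_right exp18.le (Real.exp_pos _).le
  have hqn : (q : ℝ) / (n + 1) ≤ 1 / 31 := by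
    rw [div_le_div_iff₀ (by positivity) (by norm_num)]
    have h1 : (30 * q + 3 : ℝ) ≤ N := by exact_mod_cast h
    have h2 : (N : ℝ) ≤ p := by exact_mod_cast hNN.trans hN
    have h3 : (n : ℝ) = q + p := by exact_mod_cast hn
    linarith
  have h30 : (30 * q + 3 : ℝ) ≤ N := by exact_mod_cast h
  have hnn : (n : ℝ) = q + p := by exact_mod_cast hn
  have hq0 : (0 : ℝ) ≤ q := Nat.cast_nonneg q
  set E : ℝ := Real.exp (-(79 / 1000 * ((N : ℝ) - 30 * q - 3))) with hE
  have key : Real.exp (7 / 20 * q) * (Real.exp (-(2 * (p : ℝ))) * cc ^ N') <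
      E * (dd n * r ^ q) := by
    calc Real.exp (7 / 20 * q) * (Real.exp (-(2 * (p : ℝ))) * cc ^ N')
        ≤ Real.exp (7 / 20 * q) * (Real.exp (-(2 * (p : ℝ))) * Real.exp (-(79 / 1000 * N))) := by
          gcongr
      _ = Real.exp (7 / 20 * q + (-(2 * (p : ℝ)) + -(79 / 1000 * N))) := by
          rw [Real.exp_add, Real.exp_add]
      _ < Real.exp (-(79 / 1000 * ((N : ℝ) - 30 * q - 3)) +
            ((9 / 5 - 2 * ((n : ℝ) + 1)) + -((q : ℝ) / (n + 1)))) := by
          refine Real.exp_lt_exp.2 ?_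
          linarith
      _ = E * (Real.exp (9 / 5 - 2 * ((n : ℝ) + 1)) * Real.exp (-((q : ℝ) / (n + 1)))) := by
          rw [hE, ← Real.exp_add, ← Real.exp_add]
      _ ≤ E * (dd n * r ^ q) :=
          mul_le_mul_of_nonneg_left (mul_le_mul hdd hrq (Real.exp_pos _).le (dd_pos n).le)
            (Real.exp_pos _).le
  calc Real.exp (7 / 20 * q) * (Real.exp (-(2 * (p : ℝ))) * cc ^ N' * r ^ p)
      = Real.exp (7 / 20 * q) * (Real.exp (-(2 * (p : ℝ))) * cc ^ N') * r ^ p := by ring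
    _ < E * (dd n * r ^ q) * r ^ p := mul_lt_mul_of_pos_right key hrp
    _ = _ := by ring

end Vale.Agent.P254.H4
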