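import Vale.Agent.P254.H4.ReflN
import Vale.Agent.P254.Fib.IrrTop
import Vale.Agent.P254.H242.Final

/-!
P254: the bodies with `n - q` affine hyperplane symmetries which split into `30 q + 3` orthogonal
groups.
-/

open MeasureTheory Set Matrix

namespace Vale.Agent.P254.H4

open Refl Refl.D898 FV H242

variable {n q p : ℕ}

theorem fm_pow {m : ℕ} (hm : 1 ≤ m) :
    E2.fm n m ^ m = dd m * (((n : ℝ) + 1) / ((n : ℝ) + 2)) ^ m := by
  unfold E2.fm
  have h1 : (cst m ^ (1 / (m : ℝ))) ^ m = cst m := by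
    rw [one_div, Real.rpow_inv_natCast_pow (E2.cst_pos m).le (by omega)]
  rw [mul_pow, h1, E2.cst_eq, mul_assoc, ← mul_pow]
  congr 2
  field_simp

theorem prod_blocks {β : Type} [DecidableEq β] {lab : Fin n → β} {S₀ : Finset β}
    (hS₀ : ∀ b ∈ S₀, ∃ i, lab i = b) (e : Fin n ≃ Fin q ⊕ Fin p) (h1 : ∀ j, lab (iy e j) ∉ S₀)
    (h2 : ∀ k, lab (ix e k) ∈ S₀) :
    ∏ k : Fin p, E2.fm n (bsz lab (lab (ix e k))) ≤
      Real.exp (-(2 * (p : ℝ))) * cc ^ S₀.card * (((n : ℝ) + 1) / ((n : ℝ) + 2)) ^ p := by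
  classical
  set r : ℝ := ((n : ℝ) + 1) / ((n : ℝ) + 2) with hr
  have hr0 : 0 < r := by positivity
  set T : Finset (Fin n) := Finset.univ.filter fun i => lab i ∈ S₀ with hT
  have hmaps : ∀ i ∈ T, lab i ∈ S₀ := fun i hi => (Finset.mem_filter.1 hi).2
  have step1 : ∀ g : Fin n → ℝ, ∏ k : Fin p, g (ix e k) = ∏ i ∈ T, g i := by
    intro g
    have h2' : ∀ k, lab (e.symm (Sum.inr k)) ∈ S₀ := h2
    have h1' : ∀ k, lab (e.symm (Sum.inl k)) ∉ S₀ := h1
    rw [hT, Finset.prod_filter, ← Equiv.prod_comp e.symm, Fintype.prod_sum_type]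
    simp only [h1', h2', if_true, if_false, Finset.prod_const_one, one_mul]
    rfl
  have hcard : T.card = p := by
    have h := step1 (fun _ => 2)
    rw [Finset.prod_const, Finset.prod_const, Finset.card_univ, Fintype.card_fin] at h
    exact (pow_right_injective₀ (by norm_num : (0 : ℝ) < 2) (by norm_num) h).symm
  have hfil : ∀ b ∈ S₀, T.filter (fun i => lab i = b) = Finset.univ.filter fun i => lab i = b := by
    intro b hb
    ext i
    simp only [hT, Finset.mem_filter, Finset.mem_univ, true_and]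
    exact ⟨fun h => h.2, fun h => ⟨by rw [h]; exact hb, h⟩⟩
  have hsum : ∑ b ∈ S₀, bsz lab b = p := by
    rw [← hcard, Finset.card_eq_sum_card_fiberwise hmaps]
    refine Finset.sum_congr rfl fun b hb => ?_
    rw [hfil b hb]
    unfold bsz
    congr 1
    ext i
    simp
  have hpos : ∀ b ∈ S₀, 1 ≤ bsz lab b := by
    intro b hb
    obtain ⟨i, hi⟩ := hS₀ b hb
    unfold bsz
    rw [Nat.one_le_iff_ne_zero, Finset.card_ne_zero]
    exact ⟨i, by simp [hi]⟩
  rw [step1 fun i => E2.fm n (bsz lab (lab i)), ← Finset.prod_fiberwise_of_maps_to hmaps]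
  have h3 : ∏ b ∈ S₀, ∏ i ∈ T.filter (fun i => lab i = b), E2.fm n (bsz lab (lab i)) ≤
      ∏ b ∈ S₀, (Real.exp (-(2 * (bsz lab b : ℝ))) * cc * r ^ bsz lab b) := by
    refine Finset.prod_le_prod (fun b _ => Finset.prod_nonneg fun i _ => (E2.fm_pos _ _).le)
      fun b hb => ?_
    have h4 : ∏ i ∈ T.filter (fun i => lab i = b), E2.fm n (bsz lab (lab i)) =
        E2.fm n (bsz lab b) ^ bsz lab b := by
      rw [Finset.prod_congr rfl fun i hi => by rw [(Finset.mem_filter.1 hi).2], Finset.prod_const,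
        hfil b hb]
      congr 1
      unfold bsz
      congr 1
      ext i
      simp
    rw [h4, fm_pow (hpos b hb)]
    exact mul_le_mul_of_nonneg_right (dd_le (hpos b hb)) (by positivity)
  refine h3.trans (le_of_eq ?_)
  rw [Finset.prod_mul_distrib, Finset.prod_mul_distrib, Finset.prod_const,
    Finset.prod_pow_eq_pow_sum, hsum, ← Real.exp_sum]
  congr 3
  rw [← hsum]
  push_cast
  rw [Finset.mul_sum, Finset.sum_neg_distrib]

/-- orthogonal reflections -/
theorem orth_lt {a : Fin n → Fin n → ℝ} (ha : LinearIndependent ℝ a) {T : Finset (Fin n)}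
    (hT : ∀ i, i ∉ T → ∀ j, j ≠ i → a i ⬝ᵥ a j = 0) {K : Set (Fin n → ℝ)} (hK : IsConvexBody K)
    (hR : ∀ i ∈ T, ∀ x ∈ K, rf (a i) x ∈ K) {N : ℕ} (g : Fin n → Fin N)
    (hg : ∀ c : Fin N, ∃ i ∈ T, g i = c)
    (hgo : ∀ i ∈ T, ∀ j ∈ T, g i ≠ g j → a i ⬝ᵥ a j = 0) (hN : 30 * (n - T.card) + 3 ≤ N) :
    Dn K < Real.exp (-(79 / 1000 * ((N : ℝ) - 30 * ((n : ℝ) - T.card) - 3))) * simpC n := by
  classical
  obtain ⟨O, β, lab, h1, h2, hB⟩ := H120.exists_blk ha
  have hd := C7.det_sq h1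
  have hd0 : O.det ≠ 0 := by
    intro h
    rw [h] at hd
    norm_num at hd
  have dot : ∀ i j, (O *ᵥ a i) ⬝ᵥ (O *ᵥ a j) = a i ⬝ᵥ a j := fun i j => C7.dot_orth h2 _ _
  have he : ∀ y, aff O 0 y = O *ᵥ y := fun y => by simp [aff]
  obtain ⟨hK₁, hD⟩ := Dn_aff hK hd0 0
  have hR₁ : ∀ i ∈ T, ∀ x ∈ aff O 0 '' K, rf (O *ᵥ a i) x ∈ aff O 0 '' K := by
    rintro i hi _ ⟨x, hx, rfl⟩
    refine ⟨rf (a i) x, hR i hi x hx, ?_⟩
    rw [he, he, C7.rf_orth h2]
  have path : ∀ i j, i ∈ T → Lk (fun i => O *ᵥ a i) i j → j ∈ T ∧ g j = g i := by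
    intro i j hi h
    induction h with
    | refl => exact ⟨hi, rfl⟩
    | @tail x y _ h3 ih =>
      obtain ⟨h4, h5⟩ := ih
      have h3' : a x ⬝ᵥ a y ≠ 0 := by
        rw [← dot]
        exact h3
      have hy : y ∈ T := by
        by_contra hy
        refine h3' ?_
        rw [dotProduct_comm]
        exact hT y hy x fun h => hy (h ▸ h4)
      refine ⟨hy, ?_⟩
      by_contra hne
      exact h3' (hgo x h4 y hy fun h => hne (by rw [← h, h5]))
  have hlabT : ∀ i, lab i ∈ T.image lab ↔ i ∈ T := by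
    intro i
    constructor
    · intro h
      obtain ⟨j, hj, hji⟩ := Finset.mem_image.1 h
      exact (path j i hj (hB.conn j i hji)).1
    · exact fun h => Finset.mem_image_of_mem _ h
  have hcard : N ≤ (T.image lab).card := by
    choose f hfT hfg using hg
    have h3 : Function.Injective fun c => lab (f c) := by
      intro c d hcd
      have h4 := (path (f c) (f d) (hfT c) (hB.conn _ _ hcd)).2
      rw [hfg, hfg] at h4
      exact h4.symm
    calc N = (Finset.univ : Finset (Fin N)).card := by simp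
      _ ≤ (T.image lab).card := Finset.card_le_card_of_injOn (fun c => lab (f c))
        (fun c _ => Finset.mem_image_of_mem _ (hfT c)) (h3.injOn)
  have hcard2 : (T.image lab).card ≤ T.card := Finset.card_image_le
  have hle : T.card ≤ n := (Finset.card_le_univ T).trans (by simp)
  obtain ⟨q, e, he1, he2⟩ := exists_split T
  have hc : n = q + T.card := by
    have := Fintype.card_congr e
    simpa using this
  have hcr : (n : ℝ) - T.card = q := by
    have : (n : ℝ) = q + T.card := by exact_mod_cast hc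
    linarith
  rw [hcr]
  have key : ∀ p, p = T.card → ∀ e : Fin n ≃ Fin q ⊕ Fin p, (∀ j, e.symm (Sum.inl j) ∉ T) →
      (∀ j, e.symm (Sum.inr j) ∈ T) →
      Dn K < Real.exp (-(79 / 1000 * ((N : ℝ) - 30 * q - 3))) * simpC n := by
    intro p hp e he1 he2
    obtain ⟨m, rfl⟩ : ∃ m, p = m + 1 := ⟨p - 1, by omega⟩
    have h3 := refl_bound hB (S₀ := T.image lab) (fun b hb => by
      obtain ⟨i, -, hi⟩ := Finset.mem_image.1 hb
      exact ⟨i, hi⟩) hK₁ (fun i hi => hR₁ i ((hlabT i).1 hi)) e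
      (fun j h => he1 j ((hlabT _).1 h)) (fun k => (hlabT _).2 (he2 k))
    have h4 := prod_blocks (lab := lab) (S₀ := T.image lab) (fun b hb => by
      obtain ⟨i, -, hi⟩ := Finset.mem_image.1 hb
      exact ⟨i, hi⟩) e
      (fun j h => he1 j ((hlabT _).1 h)) (fun k => (hlabT _).2 (he2 k))
    have h5 := num (q := q) (p := m + 1) (n := n) (N := N) (N' := (T.image lab).card) (by omega)
      (by omega) (by omega) (by omega)
    rw [hD] at h3
    refine lt_of_le_of_lt (h3.trans (mul_le_mul_of_nonneg_left h4 (Real.exp_pos _).le)) h5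
  exact key _ rfl e he1 he2

theorem extend_orth {m : ℕ} {a : Fin m → Fin n → ℝ} (ha : LinearIndependent ℝ a) :
    ∃ (a' : Fin n → Fin n → ℝ) (ι : Fin m ↪ Fin n), LinearIndependent ℝ a' ∧
      (∀ i, a' (ι i) = a i) ∧ ∀ k, k ∉ Set.range ι → ∀ j, j ≠ k → a' k ⬝ᵥ a' j = 0 := by
  set ev : Fin m → EuclideanSpace ℝ (Fin n) := fun i => WithLp.toLp 2 (a i) with hev
  have hli : LinearIndependent ℝ ev :=
    ha.map' (WithLp.linearEquiv 2 ℝ (Fin n → ℝ)).symm.toLinearMap (LinearEquiv.ker _)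
  set W : Submodule ℝ (EuclideanSpace ℝ (Fin n)) := Submodule.span ℝ (Set.range ev) with hW
  set B := stdOrthonormalBasis ℝ Wᗮ with hB
  set r := Module.finrank ℝ Wᗮ with hr
  set v : Fin r → EuclideanSpace ℝ (Fin n) := fun k => (B k : EuclideanSpace ℝ (Fin n)) with hv
  have hvo : Orthonormal ℝ v := B.orthonormal.comp_linearIsometry Wᗮ.subtypeₗᵢ
  have hvW : ∀ k, v k ∈ Wᗮ := fun k => (B k).2
  have hsum : LinearIndependent ℝ (Sum.elim ev v) := by
    refine LinearIndependent.sum_type hli hvo.linearIndependent ?_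
    refine (Submodule.orthogonal_disjoint W).mono_right ?_
    rw [Submodule.span_le]
    rintro _ ⟨k, rfl⟩
    exact hvW k
  have hcard : m + r = n := by
    have h1 := Submodule.finrank_add_finrank_orthogonal W
    rw [hW, finrank_span_eq_card hli, Fintype.card_fin, ← hW] at h1
    simpa using h1
  set σ : Fin m ⊕ Fin r ≃ Fin n := finSumFinEquiv.trans (finCongr hcard) with hσ
  refine ⟨fun k => (Sum.elim ev v (σ.symm k)).ofLp,
    ⟨fun i => σ (Sum.inl i), σ.injective.comp Sum.inl_injective⟩, ?_, ?_, ?_⟩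
  · have h1 := (hsum.comp σ.symm σ.symm.injective).map'
      (WithLp.linearEquiv 2 ℝ (Fin n → ℝ)).toLinearMap (LinearEquiv.ker _)
    exact h1
  · intro i
    show (Sum.elim ev v (σ.symm (σ (Sum.inl i)))).ofLp = a i
    rw [σ.symm_apply_apply]
    rfl
  · intro k hk j hjk
    rw [← H120.inner_eq]
    obtain ⟨s, rfl⟩ := σ.surjective k
    obtain ⟨t, rfl⟩ := σ.surjective j
    rw [σ.symm_apply_apply, σ.symm_apply_apply]
    rcases s with s | s
    · exact (hk ⟨s, rfl⟩).elim
    · rcases t with t | t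
      · show inner ℝ (v s) (ev t) = 0
        exact Submodule.inner_left_of_mem_orthogonal
          (Submodule.subset_span (Set.mem_range_self t)) (hvW s)
      · show inner ℝ (v s) (v t) = 0
        exact hvo.2 fun h => hjk (by rw [h])

/-- affine hyperplane symmetries -/
theorem refl_fill {m : ℕ} {a w : Fin m → Fin n → ℝ} {c : Fin m → ℝ} (ha : LinearIndependent ℝ a)
    (hw : ∀ i, w i ⬝ᵥ a i = 2) {K U S : Set (Fin n → ℝ)} (hK : IsConvexBody K)
    (hU : IsConvexBody U) (hS : IsSimplex S)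
    (hR : ∀ i, ∀ x ∈ U, x - (w i ⬝ᵥ x - c i) • a i ∈ U) {N : ℕ} (g : Fin m → Fin N)
    (hg : Function.Surjective g) (hgo : ∀ i j, g i ≠ g j → w i ⬝ᵥ a j = 0)
    (hN : 30 * (n - m) + 3 ≤ N) {t : ℝ} (ht : 0 < t) (hsub : K ⊆ U)
    (hvol : t * (volume U).toReal ≤ (volume K).toReal)
    (hfill : Real.exp (-(79 / 1000 * ((N : ℝ) - 30 * ((n : ℝ) - m) - 3))) ≤ t ^ (n + 2)) :
    isoConst K < isoConst S := by
  classical
  obtain ⟨A, b, a', hA, hli', hinv', hiff⟩ := Fib.exists_pos a w c ha hw hU hR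
  obtain ⟨a'', ι, hli'', h1, h2⟩ := extend_orth hli'
  have hmn : m ≤ n := by
    have := Fintype.card_le_of_embedding ι
    simpa using this
  have hNm : N ≤ m := by
    have := Fintype.card_le_of_surjective g hg
    simpa using this
  have hn : 1 ≤ n := by omega
  have hN0 : 0 < N := by omega
  obtain ⟨hU', hD⟩ := Dn_aff hU hA b
  set T : Finset (Fin n) := Finset.univ.map ι with hT
  have hTc : T.card = m := by simp [hT]
  have hTm : ∀ k, k ∈ T ↔ k ∈ Set.range ι := by
    intro k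
    simp [hT]
  have key := orth_lt hli'' (T := T) (fun i hi => h2 i fun h => hi ((hTm i).2 h)) hU' (by
      intro k hk x hx
      obtain ⟨i, rfl⟩ := (hTm k).1 hk
      rw [h1]
      exact hinv' i x hx)
    (g := Function.extend ι g fun _ => ⟨0, hN0⟩) (by
      intro d
      obtain ⟨i, hi⟩ := hg d
      refine ⟨ι i, (hTm _).2 ⟨i, rfl⟩, ?_⟩
      rw [ι.injective.extend_apply, hi]) (by
      intro k hk l hl hne
      obtain ⟨i, rfl⟩ := (hTm k).1 hk
      obtain ⟨j, rfl⟩ := (hTm l).1 hl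
      rw [ι.injective.extend_apply, ι.injective.extend_apply] at hne
      rw [h1, h1]
      by_contra h
      exact (hiff i j).1 h (hgo i j hne)) (by rw [hTc]; exact hN)
  rw [hTc, hD] at key
  refine iso_lt_of hn hK hS ?_
  have h3 : Dn K ≤ Dn U / t ^ (n + 2) := Dn_fills hn hK hU hsub ht hvol
  have hC := simpC_pos n
  refine lt_of_le_of_lt h3 ?_
  rw [div_lt_iff₀ (by positivity)]
  refine lt_of_lt_of_le key ?_
  rw [mul_comm (simpC n)]
  exact mul_le_mul_of_nonneg_right hfill hC.le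

end Vale.Agent.P254.H4
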