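import Vale.Agent.P254.H242.Sharp
import Vale.Agent.P254.H4.OneD
import Vale.Agent.P254.H4.Eig

/-!
P254: hyperplane sections of convex bodies (the slicing problem) with an explicit constant.
-/

open MeasureTheory Set Matrix

namespace Vale.Agent.P254.H4

lemma exp_num : 12 * (329 / 500 : ℝ) ^ 2 * Real.exp (-(33 / 40)) ^ 2 < 1 := by
  have h1 : (5.1956 : ℝ) < Real.exp (33 / 20) := by
    refine lt_of_lt_of_le ?_ (Real.sum_le_exp_of_nonneg (by norm_num : (0 : ℝ) ≤ 33 / 20) 9)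
    norm_num [Finset.sum_range_succ, Nat.factorial]
  have h2 : Real.exp (-(33 / 40)) ^ 2 * Real.exp (33 / 20) = 1 := by
    rw [← Real.exp_nat_mul, ← Real.exp_add]
    norm_num
  have h3 : 0 < Real.exp (-(33 / 40)) ^ 2 := by positivity
  nlinarith

/-- The main step: if `P` is a matrix with `|det P| = 1` and the first coordinate has variance `lam`
on `P K`, `lam^(m+1) ≤ det Σ_K`, then some slice of `P K` is large. -/
theorem core {m : ℕ} {K : Set (Fin (m + 1) → ℝ)} (hK : IsConvexBody K)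
    {P : Matrix (Fin (m + 1)) (Fin (m + 1)) ℝ} (hdet : |P.det| = 1)
    (hl : (P * covMatrix K * Pᵀ) 0 0 ^ (m + 1) ≤ (covMatrix K).det) :
    ∃ t : ℝ, 329 / 500 * (volume K).toReal ^ ((m : ℝ) / (m + 1)) ≤
      (volume (sl (aff P 0 '' K) t)).toReal := by
  by_contra hc
  push Not at hc
  have hdet0 : P.det ≠ 0 := by
    intro h
    rw [h] at hdet
    simp at hdet
  have hKc := hK.2.1
  have hV : 0 < (volume K).toReal :=
    ENNReal.toReal_pos ((isOpen_interior.measure_pos volume hK.2.2).trans_le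
      (measure_mono interior_subset)).ne' hKc.measure_lt_top.ne
  set V := (volume K).toReal with hVdef
  set L := aff P 0 '' K with hL
  have hLc : IsCompact L := isCompact_aff_image _ _ hKc
  have hLV : (volume L).toReal = V := by
    rw [hL, volume_aff_image hdet0 _ hKc.measurableSet, hdet, one_mul]
  have hcov : covMatrix L = P * covMatrix K * Pᵀ := by
    rw [hL, cov_aff_image hdet0 _ hKc hV.ne']
  set lam := (P * covMatrix K * Pᵀ) 0 0 with hlam
  set B := 329 / 500 * V ^ ((m : ℝ) / (m + 1)) with hB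
  have hB0 : 0 < B := by positivity
  have h1 := mom_lower hLc (μ := centroid L 0) hB0 (fun t => (hc t).le)
  have h2 : ∫ z in L, (z 0 - centroid L 0) ^ 2 = V * lam := by
    rw [hlam, ← hcov, covMatrix, hLV]
    field_simp
  rw [h2, hLV] at h1
  have h3 : V ^ 2 ≤ 12 * B ^ 2 * lam := by
    have : V * V ^ 2 ≤ V * (12 * B ^ 2 * lam) := by nlinarith
    exact le_of_mul_le_mul_left this hV
  -- pass to `x = V^(1/(m+1))`
  set x := V ^ (1 / ((m : ℝ) + 1)) with hx
  have hx0 : 0 < x := by positivity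
  have hm1 : ((m : ℝ) + 1) ≠ 0 := by positivity
  have hxV : x ^ (m + 1) = V := by
    rw [hx, ← Real.rpow_natCast, ← Real.rpow_mul hV.le]
    push_cast
    rw [one_div_mul_cancel hm1, Real.rpow_one]
  have hxm : x ^ m = V ^ ((m : ℝ) / (m + 1)) := by
    rw [hx, ← Real.rpow_natCast, ← Real.rpow_mul hV.le]
    congr 1
    ring
  have h4 : x ^ 2 ≤ 12 * (329 / 500) ^ 2 * lam := by
    rw [hB, ← hxm, ← hxV] at h3
    have hxm0 : 0 < x ^ m := by positivity
    have : (x ^ m) ^ 2 * x ^ 2 ≤ (x ^ m) ^ 2 * (12 * (329 / 500) ^ 2 * lam) := by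
      calc (x ^ m) ^ 2 * x ^ 2 = (x ^ (m + 1)) ^ 2 := by ring
        _ ≤ _ := h3
        _ = _ := by ring
    exact le_of_mul_le_mul_left this (by positivity)
  have h5 : (x ^ 2) ^ (m + 1) ≤ (12 * (329 / 500 : ℝ) ^ 2) ^ (m + 1) * (covMatrix K).det := by
    refine (pow_le_pow_left₀ (by positivity) h4 (m + 1)).trans ?_
    rw [mul_pow]
    exact mul_le_mul_of_nonneg_left hl (by positivity)
  have h6 : (covMatrix K).det = isoConst K ^ (2 * (m + 1)) * V ^ 2 := by
    rw [FV.isoConst_pow (by omega) (by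
      have := (covMatrix_posDef hK).det_pos
      positivity) rfl, ← hVdef]
    field_simp
  have h7 : isoConst K ≤ Real.exp (-(33 / 40)) :=
    (H242.near_sharp (by omega) hK FV.isSimplex_stdS).2
  have h8 : 0 ≤ isoConst K := by
    rw [isoConst]
    have := (covMatrix_posDef hK).det_pos
    positivity
  have h9 : (x ^ 2) ^ (m + 1) = V ^ 2 := by rw [← hxV]; ring
  rw [h9, h6] at h5
  have h10 : 1 ≤ (12 * (329 / 500 : ℝ) ^ 2 * isoConst K ^ 2) ^ (m + 1) := by
    have : V ^ 2 * 1 ≤ V ^ 2 * (12 * (329 / 500 : ℝ) ^ 2 * isoConst K ^ 2) ^ (m + 1) := by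
      refine le_trans (by simpa using h5) (le_of_eq ?_)
      ring
    exact le_of_mul_le_mul_left this (by positivity)
  have h11 : 12 * (329 / 500 : ℝ) ^ 2 * isoConst K ^ 2 < 1 := by
    refine lt_of_le_of_lt ?_ exp_num
    exact mul_le_mul_of_nonneg_left (pow_le_pow_left₀ h8 h7 2) (by positivity)
  exact absurd h10 (not_le.mpr (pow_lt_one₀ (by positivity) h11 (by omega)))

lemma sl_eq {m : ℕ} {K : Set (Fin (m + 1) → ℝ)} {O P Q : Matrix (Fin (m + 1)) (Fin (m + 1)) ℝ}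
    (hO : Oᵀ * O = 1) (hP : P = Oᵀ * Q) (t : ℝ) :
    sl (aff P 0 '' K) t =
      {y : Fin m → ℝ | O *ᵥ (Fin.cons t y : Fin (m + 1) → ℝ) ∈ (fun x => Q *ᵥ x) '' K} := by
  have hO' : O * Oᵀ = 1 := mul_eq_one_comm.mp hO
  ext y
  simp only [sl, mem_ofPred_eq, mem_image, aff, add_zero]
  constructor
  · rintro ⟨x, hx, hxy⟩
    refine ⟨x, hx, ?_⟩
    rw [← hxy, hP, mulVec_mulVec, ← Matrix.mul_assoc, hO', Matrix.one_mul]
  · rintro ⟨x, hx, hxy⟩
    refine ⟨x, hx, ?_⟩
    rw [hP, ← mulVec_mulVec, hxy, mulVec_mulVec, hO, one_mulVec]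

lemma absdet_of_orth {n : ℕ} {O : Matrix (Fin n) (Fin n) ℝ} (hO : Oᵀ * O = 1) :
    |(Oᵀ).det| = 1 := by
  have h1 := congrArg Matrix.det hO
  rw [det_mul, det_transpose, det_one] at h1
  rw [det_transpose]
  have h2 : |O.det| ^ 2 = 1 := by rw [sq_abs, sq]; exact h1
  have h3 : 0 ≤ |O.det| := abs_nonneg _
  nlinarith

/-- Every convex body in `ℝ^(m + 1)` has a hyperplane section of volume at least
`0.658 |K|^(m / (m + 1))`. -/
theorem slicing {m : ℕ} {K : Set (Fin (m + 1) → ℝ)} (hK : IsConvexBody K) :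
    ∃ O : Matrix (Fin (m + 1)) (Fin (m + 1)) ℝ, Oᵀ * O = 1 ∧ ∃ t : ℝ,
      329 / 500 * (volume K).toReal ^ ((m : ℝ) / (m + 1)) ≤
        (volume {y : Fin m → ℝ | O *ᵥ (Fin.cons t y : Fin (m + 1) → ℝ) ∈ K}).toReal := by
  obtain ⟨O, hO, -, hl⟩ := exists_orth (covMatrix_posDef hK)
  obtain ⟨t, ht⟩ := core hK (P := Oᵀ) (absdet_of_orth hO) (by rwa [transpose_transpose])
  refine ⟨O, hO, t, ?_⟩
  rw [sl_eq (Q := 1) hO (by rw [Matrix.mul_one])] at ht
  simpa using ht

/-- Every convex body in `ℝ^(m + 1)` has a volume preserving linear image which has, in every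
direction, a hyperplane section of volume at least `0.658 |K|^(m / (m + 1))`. -/
theorem slicing_all {m : ℕ} {K : Set (Fin (m + 1) → ℝ)} (hK : IsConvexBody K) :
    ∃ A : Matrix (Fin (m + 1)) (Fin (m + 1)) ℝ, |A.det| = 1 ∧
      ∀ O : Matrix (Fin (m + 1)) (Fin (m + 1)) ℝ, Oᵀ * O = 1 → ∃ t : ℝ,
        329 / 500 * (volume K).toReal ^ ((m : ℝ) / (m + 1)) ≤
          (volume {y : Fin m → ℝ |
            O *ᵥ (Fin.cons t y : Fin (m + 1) → ℝ) ∈ (fun x => A *ᵥ x) '' K}).toReal := by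
  obtain ⟨A, hA, s, -, hs, hsn⟩ := exists_iso (covMatrix_posDef hK)
  refine ⟨A, hA, fun O hO => ?_⟩
  have hd : |(Oᵀ * A).det| = 1 := by rw [det_mul, abs_mul, absdet_of_orth hO, hA, one_mul]
  have hc : (Oᵀ * A) * covMatrix K * (Oᵀ * A)ᵀ = s • (1 : Matrix _ _ ℝ) := by
    have : (Oᵀ * A) * covMatrix K * (Oᵀ * A)ᵀ = Oᵀ * (A * covMatrix K * Aᵀ) * O := by
      rw [transpose_mul, transpose_transpose]
      simp only [Matrix.mul_assoc]
    rw [this, hs, Matrix.mul_smul, Matrix.mul_one, Matrix.smul_mul, hO]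
  obtain ⟨t, ht⟩ := core hK hd (by rw [hc]; simpa using hsn.le)
  refine ⟨t, ?_⟩
  rw [sl_eq hO rfl] at ht
  exact ht

end Vale.Agent.P254.H4
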