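import Vale.Agent.P254.Bdl.B17

/-!
P254: sup-convolution for compact convex sets in `ℝ^q × [0,1]^(n+1)` which are closed downwards in
the coordinates of the cube.
-/

open MeasureTheory Set Filter Topology
open scoped NNReal

namespace Vale.Agent.P254.H4

open Unc

variable {q n : ℕ}

/-- The fibre over `x`. -/
def fb (L : Set ((Fin q → ℝ) × X (n + 1))) (x : Fin q → ℝ) : Set (X (n + 1)) := {w | (x, w) ∈ L}

/-- Compact, nonempty, convex, closed downwards in the cube. -/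
structure CL (L : Set ((Fin q → ℝ) × X (n + 1))) : Prop where
  comp : IsCompact L
  ne : L.Nonempty
  mid : ∀ p ∈ L, ∀ r ∈ L, ((1 / 2 : ℝ) • (p.1 + r.1), Unc.mid p.2 r.2) ∈ L
  low : ∀ p ∈ L, ∀ w : X (n + 1), w ≤ p.2 → (p.1, w) ∈ L

noncomputable def sF (N : ℕ) (z : (Fin q → ℝ) × X n) (p : (Fin q → ℝ) × X (n + 1)) : ℝ :=
  ((p.2 0 : unitInterval) : ℝ) - N * dist z (p.1, Fin.tail p.2)

/-- The sup-convolution. -/
noncomputable def sG (L : Set ((Fin q → ℝ) × X (n + 1))) (N : ℕ) (z : (Fin q → ℝ) × X n) : ℝ :=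
  sSup (sF N z '' L)

theorem continuous_sF (N : ℕ) (z : (Fin q → ℝ) × X n) : Continuous (sF N z) := by
  unfold sF
  have h1 : Continuous (fun p : (Fin q → ℝ) × X (n + 1) => ((p.2 0 : unitInterval) : ℝ)) :=
    continuous_subtype_val.comp ((continuous_apply 0).comp continuous_snd)
  have h2 : Continuous (fun p : (Fin q → ℝ) × X (n + 1) => dist z (p.1, (Fin.tail p.2 : X n))) :=
    continuous_const.dist (continuous_fst.prodMk (sc_continuous_tail.comp continuous_snd))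
  exact h1.sub (continuous_const.mul h2)

variable {L : Set ((Fin q → ℝ) × X (n + 1))}

theorem sG_max (hL : CL L) (N : ℕ) (z : (Fin q → ℝ) × X n) :
    ∃ p ∈ L, sG L N z = sF N z p ∧ ∀ r ∈ L, sF N z r ≤ sG L N z := by
  obtain ⟨p, hp, hmax⟩ := hL.comp.exists_isMaxOn hL.ne (continuous_sF N z).continuousOn
  have hE : sG L N z = sF N z p := by
    unfold sG
    apply le_antisymm
    · apply csSup_le (hL.ne.image _)
      rintro _ ⟨r, hr, rfl⟩
      exact hmax hr
    · apply le_csSup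
      · refine ⟨sF N z p, ?_⟩
        rintro _ ⟨r, hr, rfl⟩
        exact hmax hr
      · exact ⟨p, hp, rfl⟩
  refine ⟨p, hp, hE, fun r hr => ?_⟩
  rw [hE]
  exact hmax hr

theorem sG_lip (hL : CL L) (N : ℕ) : LipschitzWith (N : ℝ≥0) (sG L N) := by
  apply LipschitzWith.of_le_add_mul
  intro x y
  obtain ⟨p, hp, hE, -⟩ := sG_max hL N x
  obtain ⟨-, -, -, hy⟩ := sG_max hL N y
  have h1 := hy p hp
  rw [hE]
  refine le_trans ?_ (add_le_add_left h1 _)
  unfold sF
  have h2 : dist y (p.1, (Fin.tail p.2 : X n)) ≤ dist x y + dist x (p.1, Fin.tail p.2) := by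
    rw [dist_comm x y]; exact dist_triangle _ _ _
  have h3 : (N : ℝ) * dist y (p.1, (Fin.tail p.2 : X n)) ≤
      N * (dist x y + dist x (p.1, Fin.tail p.2)) :=
    mul_le_mul_of_nonneg_left h2 (Nat.cast_nonneg N)
  have h4 : (((N : ℝ≥0)) : ℝ) = (N : ℝ) := by simp
  rw [h4]
  nlinarith

theorem dist_midP (x y a b : (Fin q → ℝ) × X n) :
    dist ((1 / 2 : ℝ) • (x.1 + y.1), mid x.2 y.2) ((1 / 2 : ℝ) • (a.1 + b.1), mid a.2 b.2) ≤
      (dist x a + dist y b) / 2 := by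
  rw [Prod.dist_eq]
  refine max_le ?_ ?_
  · have h1 : dist x.1 a.1 ≤ dist x a := by rw [Prod.dist_eq]; exact le_max_left _ _
    have h2 : dist y.1 b.1 ≤ dist y b := by rw [Prod.dist_eq]; exact le_max_left _ _
    have h3 : dist ((1 / 2 : ℝ) • (x.1 + y.1)) ((1 / 2 : ℝ) • (a.1 + b.1)) ≤
        (dist x.1 a.1 + dist y.1 b.1) / 2 := by
      rw [dist_eq_norm, dist_eq_norm, dist_eq_norm]
      have e : (1 / 2 : ℝ) • (x.1 + y.1) - (1 / 2 : ℝ) • (a.1 + b.1) =
          (1 / 2 : ℝ) • ((x.1 - a.1) + (y.1 - b.1)) := by module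
      rw [e, norm_smul]
      have := norm_add_le (x.1 - a.1) (y.1 - b.1)
      have h5 : ‖(1 / 2 : ℝ)‖ = 1 / 2 := by norm_num
      rw [h5]
      linarith
    exact h3.trans (by linarith)
  · have h1 : dist x.2 a.2 ≤ dist x a := by rw [Prod.dist_eq]; exact le_max_right _ _
    have h2 : dist y.2 b.2 ≤ dist y b := by rw [Prod.dist_eq]; exact le_max_right _ _
    exact (sc_dist_mid x.2 y.2 a.2 b.2).trans (by linarith)

theorem sG_mid (hL : CL L) (N : ℕ) (x y : (Fin q → ℝ) × X n) :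
    (sG L N x + sG L N y) / 2 ≤ sG L N ((1 / 2 : ℝ) • (x.1 + y.1), mid x.2 y.2) := by
  obtain ⟨p, hp, hEp, -⟩ := sG_max hL N x
  obtain ⟨r, hr, hEr, -⟩ := sG_max hL N y
  obtain ⟨-, -, -, hz⟩ := sG_max hL N ((1 / 2 : ℝ) • (x.1 + y.1), mid x.2 y.2)
  refine le_trans ?_ (hz _ (hL.mid p hp r hr))
  rw [hEp, hEr]
  unfold sF
  simp only
  rw [sc_mid_tail]
  have h1 := mul_le_mul_of_nonneg_left
    (dist_midP x y (p.1, (Fin.tail p.2 : X n)) (r.1, (Fin.tail r.2 : X n)))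
    (Nat.cast_nonneg (α := ℝ) N)
  have h2 : ((mid p.2 r.2 0 : unitInterval) : ℝ) = ((p.2 0 : ℝ) + (r.2 0 : ℝ)) / 2 := rfl
  rw [h2]
  simp only at h1
  linarith

theorem sG_le_one (hL : CL L) (N : ℕ) (x : (Fin q → ℝ) × X n) : sG L N x ≤ 1 := by
  obtain ⟨p, -, hEp, -⟩ := sG_max hL N x
  rw [hEp]
  unfold sF
  have h1 : ((p.2 0 : unitInterval) : ℝ) ≤ 1 := (p.2 0).2.2
  have h2 : 0 ≤ (N : ℝ) * dist x (p.1, (Fin.tail p.2 : X n)) := by positivity
  linarith

theorem sG_anti_N (hL : CL L) {N N' : ℕ} (h : N ≤ N') (x : (Fin q → ℝ) × X n) :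
    sG L N' x ≤ sG L N x := by
  obtain ⟨p, hp, hEp, -⟩ := sG_max hL N' x
  obtain ⟨-, -, -, hz⟩ := sG_max hL N x
  rw [hEp]
  refine le_trans ?_ (hz p hp)
  unfold sF
  have h1 : (N : ℝ) ≤ N' := by exact_mod_cast h
  have h2 := mul_le_mul_of_nonneg_right h1 (dist_nonneg (x := x) (y := (p.1, (Fin.tail p.2 : X n))))
  linarith

theorem Hf_le_sG (hL : CL L) (N : ℕ) (x : Fin q → ℝ) (y : X n) :
    Hf (fb L x) y ≤ max (sG L N (x, y)) 0 := by
  apply scHf_le (le_max_right _ _)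
  intro t ht
  obtain ⟨-, -, -, hz⟩ := sG_max hL N (x, y)
  have h1 := hz (x, Fin.cons t y) ht
  unfold sF at h1
  simp only at h1
  rw [Fin.cons_zero, Fin.tail_cons, dist_self, mul_zero, sub_zero] at h1
  exact le_trans h1 (le_max_left _ _)

theorem fb_low (hL : CL L) (x : Fin q → ℝ) : IsLowerSet (fb L x) := by
  intro a b hba ha
  exact hL.low (x, a) ha b hba

theorem fb_closed (hL : CL L) (x : Fin q → ℝ) : IsClosed (fb L x) :=
  hL.comp.isClosed.preimage (continuous_const.prodMk continuous_id)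

theorem fb_mid (hL : CL L) (x : Fin q → ℝ) : ∀ a ∈ fb L x, ∀ b ∈ fb L x, mid a b ∈ fb L x := by
  intro a ha b hb
  have h := hL.mid _ ha _ hb
  have e : (1 / 2 : ℝ) • (x + x) = x := by module
  simp only [e] at h
  exact h

theorem sG_tendsto (hL : CL L) (x : Fin q → ℝ) (y : X n) :
    Tendsto (fun N => max (sG L N (x, y)) 0) atTop (𝓝 (Hf (fb L x) y)) := by
  rw [tendsto_order]
  refine ⟨fun a ha => Eventually.of_forall fun N => lt_of_lt_of_le ha (Hf_le_sG hL N x y),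
    fun c hc => ?_⟩
  by_contra hcon
  rw [not_eventually] at hcon
  have hcpos : 0 < c := lt_of_le_of_lt (scHf_nonneg _ y) hc
  have hall : ∀ N, c ≤ sG L N (x, y) := by
    intro N
    obtain ⟨N', hN', h⟩ := (frequently_atTop.1 hcon) N
    rw [not_lt] at h
    have h' : c ≤ sG L N' (x, y) := by
      rcases le_max_iff.1 h with h | h
      · exact h
      · linarith
    exact h'.trans (sG_anti_N hL hN' (x, y))
  let C : ℕ → Set ((Fin q → ℝ) × X (n + 1)) := fun N => L ∩ {p | c ≤ sF N (x, y) p}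
  have hCcl : ∀ N, IsClosed (C N) := fun N =>
    hL.comp.isClosed.inter (isClosed_le continuous_const (continuous_sF N (x, y)))
  have hCne : ∀ N, (C N).Nonempty := by
    intro N
    obtain ⟨p, hp, hE, -⟩ := sG_max hL N (x, y)
    exact ⟨p, hp, by rw [mem_ofPred_eq, ← hE]; exact hall N⟩
  have hCanti : ∀ N, C (N + 1) ⊆ C N := by
    rintro N p ⟨hp, hp'⟩
    refine ⟨hp, ?_⟩
    rw [mem_ofPred_eq] at hp' ⊢
    refine hp'.trans ?_
    unfold sF
    push_cast
    have := dist_nonneg (x := (x, y)) (y := (p.1, (Fin.tail p.2 : X n)))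
    nlinarith
  obtain ⟨p, hp⟩ := IsCompact.nonempty_iInter_of_sequence_nonempty_isCompact_isClosed C hCanti
    hCne (hL.comp.of_isClosed_subset (hCcl 0) inter_subset_left) hCcl
  rw [mem_iInter] at hp
  have hpL : p ∈ L := (hp 0).1
  have hp0 : c ≤ ((p.2 0 : unitInterval) : ℝ) := by
    have := (hp 0).2
    rw [mem_ofPred_eq] at this
    unfold sF at this
    simpa using this
  have hdist : dist (x, y) (p.1, (Fin.tail p.2 : X n)) = 0 := by
    by_contra hne0
    have hpos : 0 < dist (x, y) (p.1, (Fin.tail p.2 : X n)) :=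
      lt_of_le_of_ne dist_nonneg (Ne.symm hne0)
    obtain ⟨N, hN⟩ := exists_nat_gt (1 / dist (x, y) (p.1, (Fin.tail p.2 : X n)))
    have h1 := (hp N).2
    rw [mem_ofPred_eq] at h1
    unfold sF at h1
    have h2 : ((p.2 0 : unitInterval) : ℝ) ≤ 1 := (p.2 0).2.2
    have h3 : 1 < N * dist (x, y) (p.1, (Fin.tail p.2 : X n)) := by
      rwa [div_lt_iff₀ hpos] at hN
    linarith
  have hx : (x, y) = (p.1, (Fin.tail p.2 : X n)) := dist_eq_zero.1 hdist
  have hx1 : x = p.1 := congrArg Prod.fst hx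
  have hx2 : y = Fin.tail p.2 := congrArg Prod.snd hx
  have hmem : (Fin.cons (p.2 0) y : X (n + 1)) ∈ fb L x := by
    rw [hx2, Fin.cons_self_tail, hx1]
    exact hpL
  have := le_scHf (fb_low hL x) hmem
  linarith

end Vale.Agent.P254.H4
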